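import Vale.Agent.P240.R2.H584.Mod
import Vale.Agent.P240.R2.AS.Defs

/-!
Solutions of the plane equations from a representation of the algebra with six odd generators.
-/

set_option autoImplicit false
set_option linter.all false

namespace Vale.Agent.P240.R2.H584

open Vale.Agent.P240.R2.H986 (ev ev_single ev_cons ev_congr)
open Vale.Agent.P240.R2.AS (SOL)
open scoped Classical

universe u v w

noncomputable section

section
variable {V : Type v} [AddCommGroup V] [Module ℚ V] {X : Type w}

/-- the product of the operators of a word (the first letter acts first) -/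
def PR (M : X → Module.End ℚ V) : List X → Module.End ℚ V
  | [] => 1
  | x :: w => PR M w * M x

lemma PR_nil (M : X → Module.End ℚ V) : PR M [] = 1 := rfl

lemma PR_cons (M : X → Module.End ℚ V) (x : X) (w : List X) : PR M (x :: w) = PR M w * M x := rfl

lemma PR_append (M : X → Module.End ℚ V) (u w : List X) : PR M (u ++ w) = PR M w * PR M u := by
  induction u with
  | nil => rw [List.nil_append, PR_nil, mul_one]
  | cons x u ih => rw [List.cons_append, PR_cons, PR_cons, ih, mul_assoc]

/-- the iterated bracket -/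
def Bo (M : X → Module.End ℚ V) : List X → Module.End ℚ V
  | [] => 0
  | [x] => M x
  | x :: y :: l => Bo M (y :: l) * M x + (-1 : ℚ) ^ ((y :: l).length + 1) • (M x * Bo M (y :: l))

lemma Bo_single (M : X → Module.End ℚ V) (x : X) : Bo M [x] = M x := rfl

lemma Bo_cons (M : X → Module.End ℚ V) (x : X) {l : List X} (hl : l ≠ []) :
    Bo M (x :: l) = Bo M l * M x + (-1 : ℚ) ^ (l.length + 1) • (M x * Bo M l) := by
  cases l with
  | nil => exact absurd rfl hl
  | cons y l => rfl

/-- the brackets of a function given by operators -/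
lemma ev_PR (M : X → Module.End ℚ V) (ℓ : V →ₗ[ℚ] ℚ) (a : V) (g : List X) (hg : g ≠ []) :
    ∀ u v : List X, ev (fun w => ℓ (PR M w a)) g u v = ℓ (PR M v (Bo M g (PR M u a))) := by
  induction g with
  | nil => exact absurd rfl hg
  | cons x l ih =>
    intro u v
    by_cases hl : l = []
    · subst hl
      rw [ev_single, Bo_single, PR_append, PR_cons]
      rfl
    · rw [ev_cons _ _ hl, ih hl, ih hl, Bo_cons M x hl, PR_append]
      simp only [LinearMap.add_apply, LinearMap.smul_apply, Module.End.mul_apply, map_add, map_smul,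
        smul_eq_mul, PR_cons, PR_nil, one_mul, Module.End.one_apply]

/-- the operators of letters that may be undefined -/
def MO (M : Lt → Module.End ℚ V) (φ : X → Option Lt) (x : X) : Module.End ℚ V :=
  (φ x).elim 0 M

lemma MO_some {M : Lt → Module.End ℚ V} {φ : X → Option Lt} {x : X} {a : Lt}
    (h : φ x = some a) : MO M φ x = M a := by simp [MO, h]

lemma MO_none {M : Lt → Module.End ℚ V} {φ : X → Option Lt} {x : X}
    (h : φ x = none) : MO M φ x = 0 := by simp [MO, h]

lemma PR_map {M : Lt → Module.End ℚ V} {φ : X → Option Lt} {w : List X} {s : List Lt}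
    (h : w.map φ = s.map some) : PR (MO M φ) w = PR M s := by
  induction w generalizing s with
  | nil =>
    have : s = [] := by
      cases s with
      | nil => rfl
      | cons a s => simp at h
    rw [this, PR_nil, PR_nil]
  | cons x w ih =>
    cases s with
    | nil => simp at h
    | cons a s =>
      simp only [List.map_cons, List.cons.injEq] at h
      rw [PR_cons, PR_cons, ih h.2, MO_some h.1]

lemma Bo_map {M : Lt → Module.End ℚ V} {φ : X → Option Lt} {w : List X} {s : List Lt}
    (h : w.map φ = s.map some) : Bo (MO M φ) w = Bo M s := by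
  induction w generalizing s with
  | nil =>
    have : s = [] := by
      cases s with
      | nil => rfl
      | cons a s => simp at h
    rw [this]; rfl
  | cons x w ih =>
    cases s with
    | nil => simp at h
    | cons a s =>
      simp only [List.map_cons, List.cons.injEq] at h
      by_cases hw : w = []
      · subst hw
        have : s = [] := by
          cases s with
          | nil => rfl
          | cons a s => simp at h
        subst this
        rw [Bo_single, Bo_single, MO_some h.1]
      · have hs : s ≠ [] := by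
          rintro rfl
          cases w with
          | nil => exact hw rfl
          | cons y w => simp at h
        have hl : w.length = s.length := by
          have := congrArg List.length h.2
          simpa using this
        rw [Bo_cons _ _ hw, Bo_cons _ _ hs, ih h.2, MO_some h.1, hl]

/-- the function on words with support in `F` -/
def zf (M : Lt → Module.End ℚ V) (ℓ : V →ₗ[ℚ] ℚ) (a : V) (φ : X → Option Lt)
    (F : Finset (List X)) : List X → ℚ :=
  fun w => if w ∈ F then ℓ (PR (MO M φ) w a) else 0

lemma zf_ev (M : Lt → Module.End ℚ V) (ℓ : V →ₗ[ℚ] ℚ) (a : V) (φ : X → Option Lt)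
    {F : Finset (List X)} (hperm : ∀ w ∈ F, ∀ w', w.Perm w' → w' ∈ F) {g : List X} (hg : g ∈ F)
    (hg0 : g ≠ []) {s : List Lt} (hs : g.map φ = s.map some) :
    ev (zf M ℓ a φ F) g [] [] = ℓ (Bo M s a) := by
  rw [ev_congr g [] [] (z' := fun w => ℓ (PR (MO M φ) w a)), ev_PR _ _ _ _ hg0, Bo_map hs]
  · rfl
  · intro w hw
    rw [zf, if_pos (hperm g hg w (by simpa using hw.symm))]

/-- the letters of the pairs in the planes -/
structure PlaneC (F : Finset (List X)) (φ : X → Option Lt) [Fintype X] : Prop where
  perm : ∀ w ∈ F, ∀ w', w.Perm w' → w' ∈ F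
  s01 : ∀ u v : List X,
    (Finset.univ.filter fun x : X × X => u ++ x.1 :: x.2 :: v ∈ F ∧
      φ x.1 = some (false, 0) ∧ φ x.2 = some (false, 1)).card =
    (Finset.univ.filter fun x : X × X => u ++ x.1 :: x.2 :: v ∈ F ∧
      φ x.1 = some (true, 0) ∧ φ x.2 = some (true, 1)).card
  s12 : ∀ u v : List X,
    (Finset.univ.filter fun x : X × X => u ++ x.1 :: x.2 :: v ∈ F ∧
      φ x.1 = some (false, 1) ∧ φ x.2 = some (false, 2)).card =
    (Finset.univ.filter fun x : X × X => u ++ x.1 :: x.2 :: v ∈ F ∧
      φ x.1 = some (true, 1) ∧ φ x.2 = some (true, 2)).card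
  s02 : ∀ u v : List X,
    (Finset.univ.filter fun x : X × X => u ++ x.1 :: x.2 :: v ∈ F ∧
      φ x.1 = some (false, 0) ∧ φ x.2 = some (true, 2)).card =
    (Finset.univ.filter fun x : X × X => u ++ x.1 :: x.2 :: v ∈ F ∧
      φ x.1 = some (true, 0) ∧ φ x.2 = some (false, 2)).card

/-- the sum over the pairs of letters of a plane -/
lemma plane_sum [Fintype X] {M : Lt → Module.End ℚ V} (hM : Rep M) {φ : X → Option Lt}
    (S : Finset (X × X)) (hS : ∀ x ∈ S, (x.2, x.1) ∈ S)
    (h01 : (S.filter fun x => φ x.1 = some (false, 0) ∧ φ x.2 = some (false, 1)).card =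
      (S.filter fun x => φ x.1 = some (true, 0) ∧ φ x.2 = some (true, 1)).card)
    (h12 : (S.filter fun x => φ x.1 = some (false, 1) ∧ φ x.2 = some (false, 2)).card =
      (S.filter fun x => φ x.1 = some (true, 1) ∧ φ x.2 = some (true, 2)).card)
    (h02 : (S.filter fun x => φ x.1 = some (false, 0) ∧ φ x.2 = some (true, 2)).card =
      (S.filter fun x => φ x.1 = some (true, 0) ∧ φ x.2 = some (false, 2)).card) :
    ∑ x ∈ S, MO M φ x.2 * MO M φ x.1 = 0 := by
  -- numbers of pairs
  let N : Lt → Lt → ℚ := fun a b => ((S.filter fun x => φ x.1 = some a ∧ φ x.2 = some b).card : ℚ)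
  have hN : ∀ a b, N a b = N b a := by
    intro a b
    show (Finset.card _ : ℚ) = Finset.card _
    congr 1
    refine Finset.card_bij (fun x _ => (x.2, x.1)) ?_ ?_ ?_
    · intro x hx
      rw [Finset.mem_filter] at hx ⊢
      exact ⟨hS x hx.1, hx.2.2, hx.2.1⟩
    · rintro ⟨x, y⟩ _ ⟨x', y'⟩ _ h
      simp only [Prod.mk.injEq] at h ⊢
      exact ⟨h.2, h.1⟩
    · intro x hx
      rw [Finset.mem_filter] at hx
      exact ⟨(x.2, x.1), Finset.mem_filter.2 ⟨hS x hx.1, hx.2.2, hx.2.1⟩, rfl⟩
  have h1 : ∑ x ∈ S, MO M φ x.2 * MO M φ x.1 = ∑ a : Lt, ∑ b : Lt, N a b • (M b * M a) := by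
    have h2 : ∀ x : X × X, MO M φ x.2 * MO M φ x.1 =
        ∑ a : Lt, ∑ b : Lt, if φ x.1 = some a ∧ φ x.2 = some b then M b * M a else 0 := by
      intro x
      rcases ha : φ x.1 with _ | a
      · rw [MO_none ha, mul_zero]
        simp
      rcases hb : φ x.2 with _ | b
      · rw [MO_none hb, zero_mul]
        simp
      rw [MO_some ha, MO_some hb, Finset.sum_eq_single a, Finset.sum_eq_single b]
      · simp
      · intro b' _ hb'
        rw [if_neg]
        rintro ⟨-, h⟩
        exact hb' (Option.some.inj h).symm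
      · intro h; exact absurd (Finset.mem_univ _) h
      · intro a' _ ha'
        refine Finset.sum_eq_zero fun b' _ => ?_
        rw [if_neg]
        rintro ⟨h, -⟩
        exact ha' (Option.some.inj h).symm
      · intro h; exact absurd (Finset.mem_univ _) h
    rw [Finset.sum_congr rfl fun x _ => h2 x, Finset.sum_comm]
    refine Finset.sum_congr rfl fun a _ => ?_
    rw [Finset.sum_comm]
    refine Finset.sum_congr rfl fun b _ => ?_
    rw [← Finset.sum_filter, Finset.sum_const]
    show _ = ((Finset.card _ : ℕ) : ℚ) • _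
    rw [Nat.cast_smul_eq_nsmul]
  have h3 : (2 : ℚ) • ∑ x ∈ S, MO M φ x.2 * MO M φ x.1 =
      ∑ a : Lt, ∑ b : Lt, N a b • AC (M a) (M b) := by
    rw [two_smul]
    conv_lhs => rw [h1]
    conv_lhs =>
      arg 2
      rw [Finset.sum_comm]
    rw [← Finset.sum_add_distrib]
    refine Finset.sum_congr rfl fun a _ => ?_
    rw [← Finset.sum_add_distrib]
    refine Finset.sum_congr rfl fun b _ => ?_
    rw [hN b a, ← smul_add, AC, add_comm]
  have hz : ∀ {a b : Lt}, AC (M a) (M b) = 0 → AC (M b) (M a) = 0 := fun h => by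
    rw [AC_comm]; exact h
  have n01 : N (false, 0) (false, 1) = N (true, 0) (true, 1) := congrArg (fun k : ℕ => (k : ℚ)) h01
  have n12 : N (false, 1) (false, 2) = N (true, 1) (true, 2) := congrArg (fun k : ℕ => (k : ℚ)) h12
  have n02 : N (false, 0) (true, 2) = N (true, 0) (false, 2) := congrArg (fun k : ℕ => (k : ℚ)) h02
  have a01 : AC (M (true, 0)) (M (true, 1)) = - AC (M (false, 0)) (M (false, 1)) :=
    eq_neg_of_add_eq_zero_right hM.s01
  have a12 : AC (M (true, 1)) (M (true, 2)) = - AC (M (false, 1)) (M (false, 2)) :=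
    eq_neg_of_add_eq_zero_right hM.s12
  have a02 : AC (M (true, 0)) (M (false, 2)) = - AC (M (false, 0)) (M (true, 2)) :=
    eq_neg_of_add_eq_zero_right hM.s02
  have b01 : AC (M (false, 1)) (M (false, 0)) = AC (M (false, 0)) (M (false, 1)) := AC_comm _ _
  have b12 : AC (M (false, 2)) (M (false, 1)) = AC (M (false, 1)) (M (false, 2)) := AC_comm _ _
  have b02 : AC (M (true, 2)) (M (false, 0)) = AC (M (false, 0)) (M (true, 2)) := AC_comm _ _
  have c01 : AC (M (true, 1)) (M (true, 0)) = - AC (M (false, 0)) (M (false, 1)) := by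
    rw [AC_comm, a01]
  have c12 : AC (M (true, 2)) (M (true, 1)) = - AC (M (false, 1)) (M (false, 2)) := by
    rw [AC_comm, a12]
  have c02 : AC (M (false, 2)) (M (true, 0)) = - AC (M (false, 0)) (M (true, 2)) := by
    rw [AC_comm, a02]
  have h4 : ∑ a : Lt, ∑ b : Lt, N a b • AC (M a) (M b) = 0 := by
    simp only [Fintype.sum_prod_type, Fintype.sum_bool, Fin.sum_univ_three, hM.sq,
      hM.same, hz (hM.same _), hM.z02, hz (hM.z02 _),
      show AC (M (true, 0)) (M (false, 1)) = 0 from hM.z01 true,
      show AC (M (false, 0)) (M (true, 1)) = 0 from hM.z01 false,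
      show AC (M (true, 1)) (M (false, 2)) = 0 from hM.z12 true,
      show AC (M (false, 1)) (M (true, 2)) = 0 from hM.z12 false,
      hz (show AC (M (true, 0)) (M (false, 1)) = 0 from hM.z01 true),
      hz (show AC (M (false, 0)) (M (true, 1)) = 0 from hM.z01 false),
      hz (show AC (M (true, 1)) (M (false, 2)) = 0 from hM.z12 true),
      hz (show AC (M (false, 1)) (M (true, 2)) = 0 from hM.z12 false),
      a01, a12, a02, b01, b12, b02, c01, c12, c02, smul_zero, add_zero, zero_add]
    rw [hN (false, 1) (false, 0), hN (false, 2) (false, 1), hN (true, 2) (false, 0),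
      hN (true, 1) (true, 0), hN (true, 2) (true, 1), hN (false, 2) (true, 0), n01, n12, n02]
    simp only [smul_neg]
    abel
  rw [h4] at h3
  have h5 := congrArg (fun x => (2 : ℚ)⁻¹ • x) h3
  simpa using h5

/-- **solutions of the plane equations** -/
theorem zf_mem [Fintype X] {M : Lt → Module.End ℚ V} (hM : Rep M) (ℓ : V →ₗ[ℚ] ℚ) (a : V)
    {φ : X → Option Lt} {F : Finset (List X)} (h : PlaneC F φ) : zf M ℓ a φ F ∈ SOL F := by
  refine ⟨fun w hw => if_neg hw, fun u v => ?_⟩
  let S : Finset (X × X) := Finset.univ.filter fun x : X × X => u ++ x.1 :: x.2 :: v ∈ F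
  have h0 := plane_sum hM (φ := φ) S (by
    intro x hx
    rw [Finset.mem_filter] at hx ⊢
    refine ⟨Finset.mem_univ _, h.perm _ hx.2 _ ?_⟩
    exact List.Perm.append_left _ (List.Perm.swap _ _ _)) (by
      rw [Finset.filter_filter, Finset.filter_filter]; exact h.s01 u v) (by
      rw [Finset.filter_filter, Finset.filter_filter]; exact h.s12 u v) (by
      rw [Finset.filter_filter, Finset.filter_filter]; exact h.s02 u v)
  have h1 : ∑ x : X × X, zf M ℓ a φ F (u ++ x.1 :: x.2 :: v) =
      ∑ x ∈ S, ℓ (PR (MO M φ) v ((MO M φ x.2 * MO M φ x.1) (PR (MO M φ) u a))) := by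
    rw [Finset.sum_filter]
    refine Finset.sum_congr rfl fun x _ => ?_
    by_cases hx : u ++ x.1 :: x.2 :: v ∈ F
    · rw [zf, if_pos hx, if_pos hx, PR_append, PR_cons, PR_cons]
      rfl
    · rw [zf, if_neg hx, if_neg hx]
  rw [h1, ← map_sum, ← map_sum]
  have h2 : ∑ x ∈ S, (MO M φ x.2 * MO M φ x.1) (PR (MO M φ) u a) =
      (∑ x ∈ S, MO M φ x.2 * MO M φ x.1) (PR (MO M φ) u a) := by
    rw [LinearMap.sum_apply]
  rw [h2, h0, LinearMap.zero_apply, map_zero, map_zero]

end

end

end Vale.Agent.P240.R2.H584
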