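import Vale.Agent.P240.R2.H584.Van

/-!
Summary: the explicit solutions, their values, and the relation `T3`.
-/

set_option autoImplicit false
set_option linter.all false

namespace Vale.Agent.P240.R2.H584

open Vale.Agent.P240.R2.H986 (ev ev_single ev_cons ev_congr)
open Vale.Agent.P240.R2.AS (SOL)
open scoped Classical

universe u v w

noncomputable section

section weights

/-- the weights of the letters of the second model -/
def wt2 : Fin 5 → ℤ := fun c => if c = 3 then 1 else if c = 4 then -1 else 0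

/-- the weights of the six generators -/
def wtL : Lt → ℤ
  | (false, 0) => 1
  | (true, 1) => 1
  | (false, 2) => 1
  | (true, 0) => -1
  | (false, 1) => -1
  | (true, 2) => -1

/-- functions of weight `h` -/
def Wt (h : ℤ) (f : Fn (Fin 5)) : Prop := ∀ w, (w.map wt2).sum ≠ h → f w = 0

lemma Wt.pre {h : ℤ} {f : Fn (Fin 5)} (hf : Wt h f) (c : Fin 5) : Wt (h + wt2 c) (pre c f) := by
  intro w hw
  cases w with
  | nil => rfl
  | cons d w =>
    rw [pre_cons]
    split_ifs with hd
    · subst hd
      refine hf w fun h' => hw ?_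
      rw [List.map_cons, List.sum_cons, h']; ring
    · rfl

lemma Wt_iw : Wt 0 (iw []) := by
  intro w hw
  rw [iw_nil, if_neg]
  rintro rfl
  exact hw rfl

lemma Wt.cons {h : ℤ} {f : Fn (Fin 5)} (hf : Wt h f) (c : Fin 5) :
    Wt (h - wt2 c) (fun v => f (c :: v)) := by
  intro w hw
  refine hf _ fun h' => hw ?_
  rw [List.map_cons, List.sum_cons] at h'
  linarith

lemma Wt.M2 (a : Lt) {h : ℤ} {f : Fn (Fin 5)} (hf : Wt h f) : Wt (h - wtL a) (M2 a f) := by
  intro w
  induction w generalizing h f with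
  | nil => intro _; rfl
  | cons c w ih =>
    intro hw
    show R e2 (T2 a) f (c :: w) = 0
    rw [R_cons]
    have h1 : R e2 (T2 a) (fun v => f (c :: v)) w = 0 := by
      refine ih (hf.cons c) fun h' => hw ?_
      rw [List.map_cons, List.sum_cons, h']; ring
    rw [h1, mul_zero, add_zero]
    have h2 : ∀ x ∈ T2 a c, f (x.2 ++ w) = 0 := by
      intro x hx
      refine hf _ fun h' => hw ?_
      rw [List.map_append, List.sum_append] at h'
      rw [List.map_cons, List.sum_cons]
      have h3 : (x.2.map wt2).sum = wt2 c + wtL a := by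
        obtain ⟨s, i⟩ := a
        fin_cases i <;> cases s <;> fin_cases c <;> simp [T2] at hx <;>
          first
          | (rcases hx with rfl | rfl <;> simp [wt2, wtL])
          | (subst hx; simp [wt2, wtL])
      rw [h3] at h'
      linarith
    have h4 : fs (T2 a c) (fun s => f (s ++ w)) = fs (T2 a c) (fun _ => 0) :=
      fs_congr (f := fun s => f (s ++ w)) (g := fun _ => 0) h2
    rw [h4]
    have : ∀ s : List (ℚ × List (Fin 5)), fs s (fun _ => 0) = 0 := by
      intro s
      induction s with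
      | nil => rfl
      | cons x s ih => rw [fs_cons, ih]; ring
    exact this _

lemma Wt.smul {h : ℤ} {f : Fn (Fin 5)} (hf : Wt h f) (c : ℚ) : Wt h (c • f) := by
  intro w hw
  rw [Pi.smul_apply, hf w hw, smul_zero]

lemma Wt.add {h : ℤ} {f g : Fn (Fin 5)} (hf : Wt h f) (hg : Wt h g) : Wt h (f + g) := by
  intro w hw
  rw [Pi.add_apply, hf w hw, hg w hw, add_zero]

lemma Wt.Bo (s : List Lt) : ∀ {h : ℤ} {f : Fn (Fin 5)}, Wt h f →
    Wt (h - (s.map wtL).sum) (Bo H584.M2 s f) := by
  induction s with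
  | nil => intro h f _ w _; rfl
  | cons a s ih =>
    intro h f hf
    by_cases hs : s = []
    · subst hs
      rw [Bo_single]
      simpa using hf.M2 a
    · rw [Bo_cons _ _ hs]
      have h1 := ih (hf.M2 a)
      have h2 := (ih hf).M2 a
      rw [List.map_cons, List.sum_cons]
      have e1 : h - wtL a - (s.map wtL).sum = h - (wtL a + (s.map wtL).sum) := by ring
      have e2 : h - (s.map wtL).sum - wtL a = h - (wtL a + (s.map wtL).sum) := by ring
      rw [e1] at h1
      rw [e2] at h2
      exact h1.add (h2.smul _)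

lemma Wt_Zp {h : ℤ} {f : Fn (Fin 5)} (hf : Wt h f) (m : ℕ) : Wt h (Zp m f) := by
  induction m with
  | zero => exact hf
  | succ m ih =>
    have := ih.pre 0
    simpa [wt2, Zp_succ] using this

/-- wrong weights give the value zero -/
theorem value2_zero (s : List Lt) (hs : (s.map wtL).sum ≠ 2) (m : ℕ) :
    Bo M2 s (pre 4 (Zp m gPP)) [4] = 0 := by
  have h1 : Wt 1 (pre 4 (Zp m gPP)) := by
    have := (Wt_Zp ((Wt_iw.pre 3).pre 3) m).pre 4
    simpa [wt2, gPP] using this
  refine (Wt.Bo s h1) _ fun h => hs ?_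
  simp [wt2] at h
  linarith

end weights

section
variable {X : Type w} [Fintype X]

/-- evaluation at a word, as a linear form -/
def evf {Γ : Type u} (w : List Γ) : Fn Γ →ₗ[ℚ] ℚ where
  toFun f := f w
  map_add' _ _ := rfl
  map_smul' _ _ := rfl

/-- solutions of the first kind -/
def z1 (p q : ℕ) (φ : X → Option Lt) (F : Finset (List X)) : List X → ℚ :=
  zf M1 (evf [false]) (ip (p + 2) (q + 1)) φ F

/-- the list of letters of the first kind: length `p + q + 2`, with `(q + 1) / 2` letters of type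
`true` -/
def L1 (p q : ℕ) : List Lt := oL p q ++ [(false, 1), (false, 2)]

/-- solutions of the second kind, odd length -/
def z2 (m : ℕ) (φ : X → Option Lt) (F : Finset (List X)) : List X → ℚ :=
  zf M2 (evf [4]) (pre 4 (Zp m gP)) φ F

/-- the list of letters of the second kind, length `2 m + 3` -/
def L2 (m : ℕ) : List Lt := (oE m ++ [(false, 0)]) ++ [(false, 1), (false, 2)]

/-- solutions of the second kind, even length -/
def z3 (m : ℕ) (φ : X → Option Lt) (F : Finset (List X)) : List X → ℚ :=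
  zf M2 (evf [4]) (pre 4 (Zp m gPP)) φ F

/-- the list of letters of the second kind, length `2 m + 6` -/
def L3 (m : ℕ) : List Lt :=
  (oE m ++ [(false, 2), (false, 0), (false, 1), (false, 0)]) ++ [(false, 1), (false, 2)]

lemma L1_length (p q : ℕ) : (L1 p q).length = p + q + 2 := by
  rw [L1, List.length_append, oL_length]; rfl

lemma L2_length (m : ℕ) : (L2 m).length = 2 * m + 3 := by
  rw [L2, List.length_append, List.length_append, oE_length]; rfl

lemma L3_length (m : ℕ) : (L3 m).length = 2 * m + 6 := by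
  rw [L3, List.length_append, List.length_append, oE_length]; rfl

variable {F : Finset (List X)} {φ : X → Option Lt}

theorem z1_mem (h : PlaneC F φ) (p q : ℕ) : z1 p q φ F ∈ SOL F := zf_mem rep1 _ _ h

theorem z2_mem (h : PlaneC F φ) (m : ℕ) : z2 m φ F ∈ SOL F := zf_mem rep2 _ _ h

theorem z3_mem (h : PlaneC F φ) (m : ℕ) : z3 m φ F ∈ SOL F := zf_mem rep2 _ _ h

/-- flipped solutions of the first kind -/
def z1' (p q : ℕ) (φ : X → Option Lt) (F : Finset (List X)) : List X → ℚ :=
  zf (fun a => M1 (!a.1, a.2)) (evf [false]) (ip (p + 2) (q + 1)) φ F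

theorem z1'_mem (h : PlaneC F φ) (p q : ℕ) : z1' p q φ F ∈ SOL F := zf_mem rep1.flip _ _ h

theorem z1_ev (hperm : ∀ w ∈ F, ∀ w', w.Perm w' → w' ∈ F) {g : List X} (hg : g ∈ F) {p q : ℕ}
    (h : g.map φ = (L1 p q).map some) : ev (z1 p q φ F) g [] [] ≠ 0 := by
  have hg0 : g ≠ [] := by
    rintro rfl
    have := congrArg List.length h
    rw [List.length_map, List.length_map, L1_length] at this
    simp at this
  rw [z1, zf_ev _ _ _ _ hperm hg hg0 h]
  obtain ⟨s, hs, e⟩ := value1 p q
  show Bo M1 (L1 p q) _ [false] ≠ 0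
  rw [L1, e]
  rcases hs with rfl | rfl <;> norm_num

lemma Bo_flip {V : Type v} [AddCommGroup V] [Module ℚ V] (M : Lt → Module.End ℚ V)
    (s : List Lt) : Bo (fun a => M (!a.1, a.2)) (s.map fun a => (!a.1, a.2)) = Bo M s := by
  induction s with
  | nil => rfl
  | cons a s ih =>
    by_cases hs : s = []
    · subst hs
      simp [Bo_single]
    · rw [List.map_cons, Bo_cons _ _ hs, Bo_cons _ _ (by simpa using hs), ih]
      simp

theorem z1'_ev (hperm : ∀ w ∈ F, ∀ w', w.Perm w' → w' ∈ F) {g : List X} (hg : g ∈ F) {p q : ℕ}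
    (h : g.map φ = ((L1 p q).map fun a => (!a.1, a.2)).map some) :
    ev (z1' p q φ F) g [] [] ≠ 0 := by
  have hg0 : g ≠ [] := by
    rintro rfl
    have := congrArg List.length h
    rw [List.length_map, List.length_map, List.length_map, L1_length] at this
    simp at this
  rw [z1', zf_ev _ _ _ _ hperm hg hg0 h, Bo_flip]
  obtain ⟨s, hs, e⟩ := value1 p q
  show Bo M1 (L1 p q) _ [false] ≠ 0
  rw [L1, e]
  rcases hs with rfl | rfl <;> norm_num

theorem z2_ev (hperm : ∀ w ∈ F, ∀ w', w.Perm w' → w' ∈ F) {g : List X} (hg : g ∈ F) {m : ℕ}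
    (h : g.map φ = (L2 m).map some) : ev (z2 m φ F) g [] [] = 1 := by
  have hg0 : g ≠ [] := by
    rintro rfl
    have := congrArg List.length h
    rw [List.length_map, List.length_map, L2_length] at this
    simp at this
  rw [z2, zf_ev _ _ _ _ hperm hg hg0 h]
  exact value2_odd m

theorem z3_ev (hperm : ∀ w ∈ F, ∀ w', w.Perm w' → w' ∈ F) {g : List X} (hg : g ∈ F) {m : ℕ}
    (h : g.map φ = (L3 m).map some) : ev (z3 m φ F) g [] [] = 2 := by
  have hg0 : g ≠ [] := by
    rintro rfl
    have := congrArg List.length h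
    rw [List.length_map, List.length_map, L3_length] at this
    simp at this
  rw [z3, zf_ev _ _ _ _ hperm hg hg0 h]
  exact value2_even m

lemma oE_wt (m : ℕ) : ((oE m).map wtL).sum = 0 := by
  induction m with
  | zero => rfl
  | succ m ih =>
    show (((false, 0) :: (false, 1) :: oE m).map wtL).sum = 0
    rw [List.map_cons, List.map_cons, List.sum_cons, List.sum_cons, ih]
    rfl

/-- the opposite form does not contribute -/
theorem z3_flip (hperm : ∀ w ∈ F, ∀ w', w.Perm w' → w' ∈ F) {g : List X} (hg : g ∈ F) {m : ℕ}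
    (h : g.map φ = ((L3 m).map fun a => (!a.1, a.2)).map some) :
    ev (z3 m φ F) g [] [] = 0 := by
  have hg0 : g ≠ [] := by
    rintro rfl
    have := congrArg List.length h
    rw [List.length_map, List.length_map, List.length_map, L3_length] at this
    simp at this
  rw [z3, zf_ev _ _ _ _ hperm hg hg0 h]
  refine value2_zero _ ?_ m
  have h1 : ∀ s : List Lt, ((s.map fun a : Lt => ((!a.1, a.2) : Lt)).map wtL).sum =
      - (s.map wtL).sum := by
    intro s
    induction s with
    | nil => rfl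
    | cons a s ih =>
      rw [List.map_cons, List.map_cons, List.sum_cons, ih, List.map_cons, List.sum_cons]
      have : wtL (!a.1, a.2) = - wtL a := by
        obtain ⟨b, i⟩ := a
        fin_cases i <;> cases b <;> rfl
      rw [this]; ring
  rw [h1, L3, List.map_append, List.map_append, List.sum_append, List.sum_append, oE_wt]
  simp [wtL]

/-- **`T3` for the functions on words** -/
theorem T3_zf {V : Type v} [AddCommGroup V] [Module ℚ V] {M : Lt → Module.End ℚ V} (hM : Rep M)
    (ℓ : V →ₗ[ℚ] ℚ) (a : V) {Y : Type u} (κ : X → Option (Fin 3)) (τ : Y → X → Bool)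
    (S : Finset Y) (Fy : Y → Finset (List X)) (h4 : ∀ y, ∀ w ∈ Fy y, 4 ≤ w.length)
    (hS : ∀ w : List X, ∃ c : ℕ, ∀ l : List Bool, l.length = w.length →
      (S.filter fun y => w ∈ Fy y ∧ w.map (τ y) = l).card = c) :
    ∑ y ∈ S, zf M ℓ a (lt κ (τ y)) (Fy y) = 0 := by
  funext w
  rw [Finset.sum_apply]
  show ∑ y ∈ S, (if w ∈ Fy y then ℓ (PR (MO M (lt κ (τ y))) w a) else 0) = 0
  rw [← Finset.sum_filter]
  by_cases hw : ∃ y ∈ S, w ∈ Fy y
  · obtain ⟨y0, -, hy0⟩ := hw
    obtain ⟨c, hc⟩ := hS w
    have h1 := T3 hM κ τ (S.filter fun y => w ∈ Fy y) w (h4 y0 w hy0) c (by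
      intro l hl
      rw [Finset.filter_filter]
      exact hc l hl)
    rw [← map_sum, ← LinearMap.sum_apply, h1, LinearMap.zero_apply, map_zero]
  · push Not at hw
    rw [Finset.filter_eq_empty_iff.2 fun y hy => hw y hy, Finset.sum_empty]

/-- **`T3` for the functions on words**, given discriminant -/
theorem T3_zf' {V : Type v} [AddCommGroup V] [Module ℚ V] {M : Lt → Module.End ℚ V} (hM : Rep M)
    (ℓ : V →ₗ[ℚ] ℚ) (a : V) {Y : Type u} (κ : X → Option (Fin 3)) (τ : Y → X → Bool)
    (S : Finset Y) (Fy : Y → Finset (List X)) (h4 : ∀ y, ∀ w ∈ Fy y, 4 ≤ w.length)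
    (δ : ℚ) (hδ : δ = 1 ∨ δ = -1)
    (hS : ∀ w : List X, ∃ c : ℕ, ∀ l : List Bool, l.length = w.length →
      (S.filter fun y => w ∈ Fy y ∧ w.map (τ y) = l).card = if sB l = δ then c else 0) :
    ∑ y ∈ S, zf M ℓ a (lt κ (τ y)) (Fy y) = 0 := by
  funext w
  rw [Finset.sum_apply]
  show ∑ y ∈ S, (if w ∈ Fy y then ℓ (PR (MO M (lt κ (τ y))) w a) else 0) = 0
  rw [← Finset.sum_filter]
  by_cases hw : ∃ y ∈ S, w ∈ Fy y
  · obtain ⟨y0, -, hy0⟩ := hw
    obtain ⟨c, hc⟩ := hS w
    have h1 := T3' hM κ τ (S.filter fun y => w ∈ Fy y) w (h4 y0 w hy0) c δ hδ (by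
      intro l hl
      rw [Finset.filter_filter]
      exact hc l hl)
    rw [← map_sum, ← LinearMap.sum_apply, h1, LinearMap.zero_apply, map_zero]
  · push Not at hw
    rw [Finset.filter_eq_empty_iff.2 fun y hy => hw y hy, Finset.sum_empty]

end

end

end Vale.Agent.P240.R2.H584
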