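import Vale.Agent.P240.R2.H945.SemiF

/-!
Top cycles from the elements of one coset, from an explicit relation.
-/

set_option autoImplicit false
set_option linter.all false

namespace Vale.Agent.P240.R2.H584

open Finsupp hiding cons
open Subgroup Vale.Agent.P240 Vale.Agent.P240.K Vale.Agent.P240.R2.H945
open Vale.Agent.P240.R2

universe u v w

section lin

/-- vectors with sum zero, not all zero -/
lemma rank_lt {ι C : Type*} [AddCommGroup C] [Module ℚ C] (s : Finset ι) (x : ι → C)
    (hsum : ∑ i ∈ s, x i = 0) (hne : ∃ i ∈ s, x i ≠ 0) :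
    Module.finrank ℚ (Submodule.span ℚ (x '' (s : Set ι))) <
      ∑ i ∈ s, Module.finrank ℚ (Submodule.span ℚ {x i}) := by
  classical
  obtain ⟨i₀, hi₀, h0⟩ := hne
  have h1 : Submodule.span ℚ (x '' (s : Set ι)) ≤
      Submodule.span ℚ ((((s.filter fun i => x i ≠ 0).erase i₀).image x : Finset C) : Set C) := by
    rw [Submodule.span_le]
    rintro _ ⟨i, hi, rfl⟩
    rw [Finset.mem_coe] at hi
    by_cases hx : x i = 0
    · rw [hx]; exact Submodule.zero_mem _
    by_cases hi0 : i = i₀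
    · subst hi0
      have h2 : x i = - ∑ j ∈ s.erase i, x j := by
        rw [← Finset.add_sum_erase s x hi] at hsum
        exact eq_neg_of_add_eq_zero_left hsum
      rw [h2]
      refine Submodule.neg_mem _ (Submodule.sum_mem _ fun j hj => ?_)
      by_cases hxj : x j = 0
      · rw [hxj]; exact Submodule.zero_mem _
      · refine Submodule.subset_span ?_
        rw [Finset.mem_coe]
        refine Finset.mem_image_of_mem _ ?_
        rw [Finset.mem_erase] at hj ⊢
        exact ⟨hj.1, Finset.mem_filter.2 ⟨hj.2, hxj⟩⟩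
    · refine Submodule.subset_span ?_
      rw [Finset.mem_coe]
      refine Finset.mem_image_of_mem _ ?_
      rw [Finset.mem_erase]
      exact ⟨hi0, Finset.mem_filter.2 ⟨hi, hx⟩⟩
  have h2 := Submodule.finrank_mono h1
  have h3 := (finrank_span_finset_le_card (R := ℚ)
    (((s.filter fun i => x i ≠ 0).erase i₀).image x)).trans Finset.card_image_le
  have h4 : i₀ ∈ s.filter fun i => x i ≠ 0 := Finset.mem_filter.2 ⟨hi₀, h0⟩
  have h5 : ∑ i ∈ s, Module.finrank ℚ (Submodule.span ℚ {x i}) =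
      (s.filter fun i => x i ≠ 0).card := by
    rw [Finset.card_filter]
    refine Finset.sum_congr rfl fun i _ => ?_
    by_cases hx : x i = 0
    · rw [if_neg (not_not.2 hx), hx]
      simp
    · rw [if_pos hx]
      exact finrank_span_singleton hx
  rw [h5]
  have h6 := Finset.card_erase_add_one h4
  have h7 : Module.finrank ℚ (Submodule.span ℚ (x '' (s : Set ι))) ≤
      ((s.filter fun i => x i ≠ 0).erase i₀).card := h2.trans h3
  omega

end lin

section comb
variable {G : Type u} [Group G] {X : Type v} {p n : ℕ} {F : Finset (List X)} {e : List X → G}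

/-- **Top cycles from the elements of one coset**, from solutions with sum zero. -/
theorem top_of_sum [hp : Fact p.Prime] [Finite G] [Fintype X] (hn : 2 ≤ n) (hc : AS.Comb p n F e)
    {N M : Subgroup G} {Y : Finset G} {Fy : G → Finset (List X)} (hd : SemiData p F e N M Y Fy)
    (z : G → List X → ℚ) (hz : ∀ y ∈ Y, z y ∈ AS.SOL (Fy y)) (hsum : ∑ y ∈ Y, z y = 0)
    {y₀ : G} (hy₀ : y₀ ∈ Y) (hne : AS.bm X (z y₀) ≠ 0) (𝕜 : Type w) [Field 𝕜] :
    ∃ y ∈ Y, ∃ w ∈ Fy y, ∃ (α : Ch 𝕜 (Subgroup G)) (l : List (Subgroup G)),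
      TopCycle 𝕜 p M (zpowers y ⊔ closure {z | ∃ u v, w = u ++ v ∧ z = e u}) α l ∧
        l.length = n := by
  classical
  have hcy : ∀ y ∈ Y, AS.Comb p n (Fy y) e := fun y hy => Comb_mono hc (hd.sub y hy) (hd.perm y hy)
  have hmem : ∀ y ∈ Y, ∀ u v : List X, u ++ v ∈ Fy y →
      e u ∈ N ⊓ centralizer (zpowers y : Set G) := by
    intro y hy u v h
    refine ⟨hd.memN u v (hd.sub y hy h), mem_centralizer_iff.2 ?_⟩
    rintro _ ⟨k, rfl⟩
    have h1 : Commute (e u) y := hd.fix y hy u v h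
    exact (h1.zpow_right k).eq.symm
  have hSOL : ∀ y ∈ Y, ∀ z ∈ AS.SOL (Fy y), (∀ w, w ∉ Fy y → z w = 0) ∧
      ∀ u v : List X, ∑ x : X × X, z (u ++ x.1 :: x.2 :: v) = 0 := fun y _ z hz => hz
  have hmu : ∀ y ∈ Y, ∀ z ∈ AS.SOL (Fy y), muL (fun w => zpowers (e w)) F z =
      H938.mu (fun w => zpowers (e w)) (Fy y) z := fun y hy z hz => by
    rw [muL_apply, mu_sub _ (hd.sub y hy) (hSOL y hy z hz).1]
  have hS : ∀ y ∈ Y, ∀ x ∈ Submodule.span ℚ {z y}, x ∈ AS.SOL (Fy y) := by
    intro y hy x hx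
    exact (Submodule.span_le.2 (Set.singleton_subset_iff.2 (hz y hy))) hx
  have hfd : FiniteDimensional ℚ (Submodule.span ℚ
      ((fun y => muL (fun w => zpowers (e w)) F (z y)) '' (Y : Set G))) :=
    FiniteDimensional.span_of_finite ℚ ((Finset.finite_toSet Y).image _)
  have hmap : ∀ y, (Submodule.span ℚ {z y}).map (muL (fun w => zpowers (e w)) F) =
      Submodule.span ℚ {muL (fun w => zpowers (e w)) F (z y)} := by
    intro y
    rw [Submodule.map_span, Set.image_singleton]
  have hcount : Module.finrank ℚ (Submodule.span ℚ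
      ((fun y => muL (fun w => zpowers (e w)) F (z y)) '' (Y : Set G))) <
      ∑ y ∈ Y, Module.finrank ℚ ((Submodule.span ℚ {z y}).map
        (muL (fun w => zpowers (e w)) F)) := by
    have h1 : ∑ y ∈ Y, Module.finrank ℚ ((Submodule.span ℚ {z y}).map
        (muL (fun w => zpowers (e w)) F)) = ∑ y ∈ Y, Module.finrank ℚ
        (Submodule.span ℚ {muL (fun w => zpowers (e w)) F (z y)}) :=
      Finset.sum_congr rfl fun y _ => by rw [hmap y]
    rw [h1]
    refine rank_lt Y (fun y => muL (fun w => zpowers (e w)) F (z y)) ?_ ⟨y₀, hy₀, ?_⟩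
    · rw [← map_sum, hsum, map_zero]
    · rw [hmu y₀ hy₀ _ (hz y₀ hy₀)]
      exact bm_ne (hcy y₀ hy₀) hn (hz y₀ hy₀) hne
  obtain ⟨y, hy, B, ⟨w, hw, rfl⟩, α, l, h1, h2⟩ := semi_top (p := p) 𝕜 (K := M) (r := n - 1) Y hd.le
    hd.memM hd.pow hd.notN hd.coset (muL (fun w => zpowers (e w)) F)
    (muL (fun w => zpowers (e w)) F) (fun y => Submodule.span ℚ {z y})
    (fun y _ => inferInstance)
    (Submodule.span ℚ ((fun y => muL (fun w => zpowers (e w)) F (z y)) '' (Y : Set G)))
    (fun y hy x hx => by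
      obtain ⟨c, rfl⟩ := Submodule.mem_span_singleton.1 hx
      rw [map_smul]
      exact Submodule.smul_mem _ _ (Submodule.subset_span ⟨y, hy, rfl⟩))
    (fun y => {B | ∃ w ∈ Fy y, B = closure {z | ∃ u v, w = u ++ v ∧ z = e u}})
    (fun y hy B hB => by
      obtain ⟨w, hw, rfl⟩ := hB
      refine ⟨?_, (hcy y hy).card w hw⟩
      rw [closure_le]
      rintro _ ⟨u, v, h, rfl⟩
      exact hmem y hy u v (h ▸ hw))
    (fun y hy x hx => by rw [hmu y hy x (hS y hy x hx)]; exact mu_head (hcy y hy) hn x)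
    (fun y hy x hx => by
      rw [hmu y hy x (hS y hy x hx)]; exact H938.comb_mem (hcy y hy) x _ (hmem y hy))
    (fun y hy x hx => by
      rw [hmu y hy x (hS y hy x hx)]
      exact H938.comb_bd (hcy y hy) x (hSOL y hy x (hS y hy x hx)).1
        (hSOL y hy x (hS y hy x hx)).2)
    (fun y hy x hx hb => hb)
    hcount
  exact ⟨y, hy, w, hw, α, l, h1, by omega⟩

end comb

end Vale.Agent.P240.R2.H584
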