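import Vale.Agent.P240.H138.O25Defs
import Vale.Agent.P240.R2.H938.M4c

/-!
`PΩ_n(25)`: the letters of the standard frame, and the solutions.
-/

set_option autoImplicit false
set_option linter.all false

namespace Vale.Agent.P240.R2.H584.O

open Matrix Vale.Agent.P240.R2.AS Vale.Agent.P240.R2.H38 Vale.Agent.P240.R2.H584
open Vale.Agent.P240.R2.H296.O (SOm)
open Vale.Agent.P240.R2.H401.E (Ftw)
open Vale.Agent.P240.R2.H986 (ev)
open Vale.Agent.P240.H138.O25
open scoped Classical

universe u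

noncomputable section

section
variable {K : Type u} [Field K] [Fintype K] [StarRing K] {n : ℕ} {σ : K ≃+* K} {ρ : K}

lemma F25.cd (hF : F25 K σ ρ) : Fintype.card K = 25 := by
  rw [← Nat.card_eq_fintype_card, hF.card]

lemma F25.c25 (hF : F25 K σ ρ) : ((25 : ℕ) : K) = 0 := by
  rw [← F25.cd hF]; exact FiniteField.cast_card_eq_zero K

lemma F25.two (hF : F25 K σ ρ) : (2 : K) ≠ 0 := by
  intro h
  have h3 : (1 : K) = 0 := by
    have : (1 : K) = ((25 : ℕ) : K) - 2 * 12 := by push_cast; ring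
    rw [this, F25.c25 hF, h]; ring
  exact one_ne_zero h3

lemma F25.three (hF : F25 K σ ρ) : (3 : K) ≠ 0 := by
  intro h
  have h3 : (1 : K) = 0 := by
    have : (1 : K) = ((25 : ℕ) : K) - 3 * 8 := by push_cast; ring
    rw [this, F25.c25 hF, h]; ring
  exact one_ne_zero h3

lemma F25.r3 (hF : F25 K σ ρ) : ρ ^ 3 = -1 := by
  have hρ := hF.rho
  have : ρ ^ 3 = ρ * ρ ^ 2 := by ring
  rw [this, hρ]
  linear_combination hρ

lemma F25.r0 (hF : F25 K σ ρ) : ρ ≠ 0 := by
  intro h
  have := hF.rho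
  rw [h] at this
  simp at this

lemma F25.r1 (hF : F25 K σ ρ) : ρ ≠ 1 := by
  intro h
  have := hF.rho
  rw [h] at this
  simp at this

lemma F25.r21 (hF : F25 K σ ρ) : ρ ^ 2 ≠ 1 := by
  intro h
  have h1 := hF.rho
  rw [h] at h1
  have h2 : ρ = 2 := by linear_combination -h1
  rw [h2] at h
  exact F25.three hF (by linear_combination h)

lemma F25.r2r (hF : F25 K σ ρ) : ρ ^ 2 ≠ ρ := by
  intro h
  exact F25.r1 hF (mul_left_cancel₀ (F25.r0 hF) (by rw [mul_one, ← pow_two, h]))

lemma F25.theta (hF : F25 K σ ρ) : ∃ θ : K, θ * θ = ρ := by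
  have h2 : ringChar K ≠ 2 := by
    intro h
    have := FiniteField.even_card_of_char_two h
    rw [F25.cd hF] at this
    norm_num at this
  obtain ⟨θ, hθ⟩ := (FiniteField.isSquare_iff h2 (F25.r0 hF)).2 (by
    rw [F25.cd hF]
    show ρ ^ 12 = 1
    have : ρ ^ 12 = (ρ ^ 3) ^ 4 := by ring
    rw [this, F25.r3 hF]; norm_num)
  exact ⟨θ, hθ.symm⟩

/-- the fixed vector with prescribed colours -/
def wv (θ : K) (j : Fin n → Fin 3) : Fin n → K := fun i => θ ^ (j i).val

lemma kap_std (hF : F25 K σ ρ) {θ : K} (hθ : θ * θ = ρ) (j : Fin n → Fin 3) (i : Fin n) :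
    kap ρ (wv θ j) (E1 i) = some (j i) := by
  have e0 : wv θ j ⬝ᵥ ((E1 i : Ln K n).1 *ᵥ wv θ j) = ρ ^ (j i).val := by
    rw [E1_coe, dotProduct, Finset.sum_eq_single i]
    · rw [mulVec_diagonal, wv, ← hθ]; simp; ring
    · intro b _ hb; rw [mulVec_diagonal]; simp [hb]
    · simp
  rw [kap, e0]
  generalize j i = k
  fin_cases k
  · simp
  · simp [F25.r1 hF]
  · simp [F25.r21 hF, F25.r2r hF]

lemma tau_one (hF : F25 K σ ρ) (i : Fin n) : tau σ (1 : GU K n) (E1 i) = false := by
  rw [tau, decide_eq_false_iff_not]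
  rintro ⟨e, he, h⟩
  have h1 : e i * e i = 1 := by
    have := congrFun (congrFun he i) i
    rw [E1_coe, vecMulVec_apply, diagonal_apply_eq, if_pos rfl] at this
    exact this.symm
  have h2 := congrFun h i
  rw [show ((1 : GU K n) : Matrix (Fin n) (Fin n) K) = 1 from rfl, one_mulVec, Pi.neg_apply] at h2
  have h3 : e i = 1 ∨ e i = -1 := mul_self_eq_one_iff.1 h1
  rcases h3 with h3 | h3
  · rw [h3, map_one] at h2
    exact F25.two hF (by linear_combination h2)
  · rw [h3, map_neg, map_one] at h2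
    exact F25.two hF (by linear_combination -h2)

lemma tau_neg (s : GU K n) (hs : s.1 = -1) (i : Fin n) : tau σ s (E1 i) = true := by
  rw [tau, decide_eq_true_iff]
  refine ⟨Pi.single i 1, ?_, ?_⟩
  · rw [E1_coe]
    ext a b
    rw [vecMulVec_apply, diagonal_apply, Pi.single_apply, Pi.single_apply]
    by_cases h1 : a = i
    · subst h1
      by_cases h2 : a = b
      · subst h2; simp
      · have h3 : b ≠ a := fun h => h2 h.symm
        simp [h2, h3]
    · by_cases h2 : a = b
      · subst h2; simp [h1]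
      · simp [h1, h2]
  · rw [hs, neg_mulVec, one_mulVec]
    congr 1
    funext k
    by_cases h : k = i
    · subst h; simp
    · simp [Pi.single_apply, h]

lemma w0_Ftw (s : GU K n) (hs : s.1 = 1 ∨ s.1 = -1) : w0 K n ∈ Ftw s σ := by
  rw [Ftw, Finset.mem_filter]
  refine ⟨w0_mem, fun P hP => ?_⟩
  rw [w0, List.mem_ofFn] at hP
  obtain ⟨i, rfl⟩ := hP
  have h1 : ((E1 i : Ln K n).1).map σ = (E1 i : Ln K n).1 := by
    rw [E1_coe, diagonal_map (map_zero σ)]
    congr 1
    funext k
    by_cases h : k = i <;> simp [h]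
  rw [h1]
  rcases hs with hs | hs
  · rw [hs, star_one, one_mul, mul_one]
  · rw [hs, star_neg, star_one, mul_neg, mul_one, neg_mul, one_mul, neg_neg]

/-- (C) -/
theorem stmtC : StmtC.{u} := by
  intro K _ _ _ σ ρ hF n κ hκ
  obtain ⟨θ, hθ⟩ := F25.theta hF
  subst hκ
  let j : Fin κ.length → Fin 3 := fun i => κ.get i
  have e1 : ∀ (i : ℕ) (hi : i < κ.length), (w0 K κ.length)[i]'(by simp [w0]; exact hi) =
      E1 ⟨i, hi⟩ := by
    intro i hi; simp [w0]
  refine ⟨wv θ j, w0 K κ.length, fun s hs => w0_Ftw s hs, ?_, fun s hs => ?_⟩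
  · apply List.ext_getElem
    · simp [w0]
    · intro i h1 h2
      have hi : i < κ.length := by simpa using h2
      rw [List.getElem_map, List.getElem_map, e1 i hi, lt, kap_std hF hθ, tau_one hF]
      rfl
  · apply List.ext_getElem
    · simp [w0]
    · intro i h1 h2
      have hi : i < κ.length := by simpa using h2
      rw [List.getElem_map, List.getElem_map, e1 i hi, lt, kap_std hF hθ, tau_neg s hs]
      rfl

lemma L2_eq (m : ℕ) : (L2 m).map some = ((L2 m).map Prod.snd).map (fun j => some (false, j)) := by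
  have : ∀ m, ∀ a ∈ oE m, a.1 = false := by
    intro m
    induction m with
    | zero => simp [oE]
    | succ m ih =>
      intro a ha
      simp only [oE, List.mem_cons] at ha
      rcases ha with rfl | rfl | ha
      · rfl
      · rfl
      · exact ih a ha
  have h2 : ∀ a ∈ L2 m, a.1 = false := by
    intro a ha
    simp only [L2, List.mem_append, List.mem_cons, List.not_mem_nil, or_false] at ha
    rcases ha with (ha | rfl) | rfl | rfl
    · exact this m a ha
    · rfl
    · rfl
    · rfl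
  rw [List.map_map]
  refine List.map_congr_left fun a ha => ?_
  have := h2 a ha
  show some a = some (false, a.2)
  rw [← this]

lemma L3_fst (m : ℕ) : ∀ a ∈ L3 m, a.1 = false := by
  have : ∀ m, ∀ a ∈ oE m, a.1 = false := by
    intro m
    induction m with
    | zero => simp [oE]
    | succ m ih =>
      intro a ha
      simp only [oE, List.mem_cons] at ha
      rcases ha with rfl | rfl | ha
      · rfl
      · rfl
      · exact ih a ha
  intro a ha
  simp only [L3, List.mem_append, List.mem_cons, List.not_mem_nil, or_false] at ha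
  rcases ha with (ha | rfl | rfl | rfl | rfl) | rfl | rfl
  · exact this m a ha
  all_goals rfl

lemma L3_eq (m : ℕ) : (L3 m).map some = ((L3 m).map Prod.snd).map (fun j => some (false, j)) := by
  rw [List.map_map]
  refine List.map_congr_left fun a ha => ?_
  have := L3_fst m a ha
  show some a = some (false, a.2)
  rw [← this]

lemma L3_eq' (m : ℕ) : ((L3 m).map fun a => (!a.1, a.2)).map some =
    ((L3 m).map Prod.snd).map (fun j => some (true, j)) := by
  rw [List.map_map, List.map_map]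
  refine List.map_congr_left fun a ha => ?_
  have := L3_fst m a ha
  show some (!a.1, a.2) = some (true, a.2)
  rw [this]
  rfl

/-- **(S) from (P), (B), (B'), (C)** -/
theorem stmtS_of (hP : StmtP.{u}) (hB : StmtB.{u}) (hB' : StmtB'.{u}) : StmtS.{u} := by
  intro K _ _ _ σ ρ hF n hn
  have hC := stmtC K σ ρ hF n
  have one_RF : RF σ (1 : GU K n) := by
    show (1 : Matrix (Fin n) (Fin n) K) * (1 : Matrix (Fin n) (Fin n) K).map σ = 1
    rw [Matrix.map_one _ (map_zero σ) (map_one σ), one_mul]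
  have hW : ∀ g : List (Ln K n), g ∈ Ftw (1 : GU K n) σ → (1 : GU K n) ∈ Finset.univ.filter
      (fun s : GU K n => RF σ s ∧ s.1.det = 1 ∧ (Ftw s σ).Nonempty) := by
    intro g hg
    rw [Finset.mem_filter]
    exact ⟨Finset.mem_univ _, one_RF, det_one, ⟨g, hg⟩⟩
  have hsc : ∀ s : GU K n, s ≠ 1 → (∃ a : K, s.1 = a • (1 : Matrix (Fin n) (Fin n) K)) →
      s.1 = -1 := by
    rintro s hs ⟨a, ha⟩
    have h1 : s.1 * star s.1 = 1 := s.2.2
    have h2 : star s.1 = a • (1 : Matrix (Fin n) (Fin n) K) := by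
      rw [ha, star_smul, star_one, hF.st]
    rw [h2, ha, smul_mul_smul_comm, one_mul] at h1
    have h3 : a * a = 1 := by
      have := congrFun (congrFun h1 ⟨0, by omega⟩) ⟨0, by omega⟩
      simpa using this
    rcases mul_self_eq_one_iff.1 h3 with h | h
    · exfalso
      apply hs
      apply Subtype.ext
      rw [ha, h, one_smul]; rfl
    · rw [ha, h, neg_one_smul]
  rcases Nat.even_or_odd n with he | ho
  · -- even
    obtain ⟨m, rfl⟩ : ∃ m, n = 2 * m + 6 := by
      obtain ⟨k, hk⟩ := he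
      exact ⟨k - 3, by omega⟩
    obtain ⟨w, g, hg, hg1, hg2⟩ := hC ((L3 m).map Prod.snd) (by rw [List.length_map, L3_length])
    refine ⟨_, fun s => z3 m (lt (kap ρ w) (tau σ s)) (Ftw s σ), ?_, ?_, ?_,
      hW g (hg 1 (Or.inl rfl)), g, ?_, ?_⟩
    · intro s hs
      rw [Finset.mem_filter] at hs
      exact ⟨hB' K σ ρ hF _ s hs.2.1 hs.2.2.1 hs.2.2.2, hs.2.1⟩
    · intro s hs
      rw [Finset.mem_filter] at hs
      exact z3_mem (hP K σ ρ hF _ s hs.2.1 w) m
    · exact hB K σ ρ hF _ (by omega) w _ _ rep2 _ _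
    · rw [← L3_eq] at hg1
      have := z3_ev (hP K σ ρ hF _ 1 one_RF w).perm (hg 1 (Or.inl rfl)) hg1
      show ev (z3 m (lt (kap ρ w) (tau σ (1 : GU K (2 * m + 6)))) (Ftw 1 σ)) g [] [] ≠ 0
      rw [this]
      norm_num
    · intro s hs hs1 hsa
      rw [Finset.mem_filter] at hs
      have h1 := hsc s hs1 hsa
      have h2 := hg2 s h1
      rw [← L3_eq'] at h2
      exact z3_flip (hP K σ ρ hF _ s hs.2.1 w).perm (hg s (Or.inr h1)) h2
  · -- odd
    obtain ⟨m, rfl⟩ : ∃ m, n = 2 * m + 3 := by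
      obtain ⟨k, hk⟩ := ho
      exact ⟨k - 1, by omega⟩
    obtain ⟨w, g, hg, hg1, hg2⟩ := hC ((L2 m).map Prod.snd) (by rw [List.length_map, L2_length])
    refine ⟨_, fun s => z2 m (lt (kap ρ w) (tau σ s)) (Ftw s σ), ?_, ?_, ?_,
      hW g (hg 1 (Or.inl rfl)), g, ?_, ?_⟩
    · intro s hs
      rw [Finset.mem_filter] at hs
      exact ⟨hB' K σ ρ hF _ s hs.2.1 hs.2.2.1 hs.2.2.2, hs.2.1⟩
    · intro s hs
      rw [Finset.mem_filter] at hs
      exact z2_mem (hP K σ ρ hF _ s hs.2.1 w) m
    · exact hB K σ ρ hF _ (by omega) w _ _ rep2 _ _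
    · rw [← L2_eq] at hg1
      have := z2_ev (hP K σ ρ hF _ 1 one_RF w).perm (hg 1 (Or.inl rfl)) hg1
      show ev (z2 m (lt (kap ρ w) (tau σ (1 : GU K (2 * m + 3)))) (Ftw 1 σ)) g [] [] ≠ 0
      rw [this]
      norm_num
    · intro s hs hs1 hsa
      rw [Finset.mem_filter] at hs
      have h1 := hsc s hs1 hsa
      exfalso
      have h2 := hs.2.2.1
      rw [h1, det_neg, det_one, Fintype.card_fin, mul_one] at h2
      have h3 : Odd (2 * m + 3) := ho
      rw [h3.neg_one_pow] at h2
      exact F25.two hF (by linear_combination -h2)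

end

end

end Vale.Agent.P240.R2.H584.O
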