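import Vale.Agent.P240.R2.H584.Van2
import Vale.Agent.P240.R2.H315.Defs
import Vale.Agent.P240.R2.H938.M4c

/-!
`PSU_n(5)`: the standard frame with prescribed colours (all types `false`).
-/

set_option autoImplicit false
set_option linter.all false

namespace Vale.Agent.P240.R2.H584

open Matrix Vale.Agent.P240.R2.AS Vale.Agent.P240.R2.H38 Vale.Agent.P240.R2.H315
open Vale.Agent.P240.R2.H986 (ev ev_single ev_cons ev_congr ev_zero)
open scoped Classical

universe u v

noncomputable section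

section

/-- a killed letter makes the bracket vanish -/
lemma zf_ev_none {V : Type v} [AddCommGroup V] [Module ℚ V] {X : Type u} (M : Lt → Module.End ℚ V)
    (ℓ : V →ₗ[ℚ] ℚ) (a : V) (φ : X → Option Lt) (F : Finset (List X)) {g : List X}
    (h : ∃ x ∈ g, φ x = none) : ev (zf M ℓ a φ F) g [] [] = 0 := by
  obtain ⟨x, hx, h0⟩ := h
  rw [ev_congr g [] [] (z' := 0) ?_, ev_zero]
  intro w hw
  have hxw : x ∈ w := by
    have := hw.mem_iff (a := x)
    simpa using this.2 (by simpa using hx)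
  rw [zf]
  split_ifs
  · rw [PR_none hxw (MO_none h0), LinearMap.zero_apply, map_zero]
    rfl
  · rfl

variable {K : Type u} [Field K] [Fintype K] [StarRing K] {n : ℕ}

/-- the colours are squares -/
lemma exists_theta {ρ : K} (hF : F25 K ρ) : ∃ θ : K, θ * θ = ρ := by
  have hρ := hF.rho
  have h0 : ρ ≠ 0 := by
    rintro rfl
    rw [mul_zero, zero_sub] at hρ
    exact one_ne_zero (neg_eq_zero.1 hρ.symm)
  have h3 : ρ ^ 3 = -1 := by
    have : ρ ^ 3 = ρ * (ρ * ρ) := by ring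
    rw [this, hρ, mul_sub, hρ]; ring
  have hc : Fintype.card K = 25 := by
    rw [← Nat.card_eq_fintype_card, hF.card]; norm_num
  have h2 : ringChar K ≠ 2 := by
    intro h
    have := FiniteField.even_card_of_char_two h
    rw [hc] at this
    norm_num at this
  obtain ⟨θ, hθ⟩ := (FiniteField.isSquare_iff h2 h0).2 (by
    rw [hc]
    show ρ ^ 12 = 1
    have : ρ ^ 12 = (ρ ^ 3) ^ 4 := by ring
    rw [this, h3]; norm_num)
  exact ⟨θ, hθ.symm⟩

lemma F25.two {ρ : K} (hF : F25 K ρ) : (2 : K) ≠ 0 := by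
  have hc : Fintype.card K = 25 := by
    rw [← Nat.card_eq_fintype_card, hF.card]; norm_num
  have h5 : ((5 : ℕ) : K) = 0 := by
    have h1 : ((25 : ℕ) : K) = 0 := by rw [← hc]; exact FiniteField.cast_card_eq_zero K
    have h2 : ((5 : ℕ) : K) * (5 : ℕ) = 0 := by rw [← Nat.cast_mul]; exact h1
    exact mul_self_eq_zero.1 h2
  intro h
  have h3 : (1 : K) = 0 := by
    have : (1 : K) = ((5 : ℕ) : K) - 2 * 2 := by push_cast; ring
    rw [this, h5, h]; ring
  exact one_ne_zero h3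

lemma rho3 {ρ : K} (hF : F25 K ρ) : ρ ^ 3 = -1 := by
  have hρ := hF.rho
  have : ρ ^ 3 = ρ * (ρ * ρ) := by ring
  rw [this, hρ, mul_sub, hρ]; ring

lemma rho_ne0 {ρ : K} (hF : F25 K ρ) : ρ ≠ 0 := by
  intro h
  have := hF.rho
  rw [h] at this
  simp at this

lemma rho_ne1 {ρ : K} (hF : F25 K ρ) : ρ ≠ 1 := by
  intro h
  have := hF.rho
  rw [h] at this
  simp at this

lemma rho2_ne1 {ρ : K} (hF : F25 K ρ) : ρ * ρ ≠ 1 := by
  intro h
  have h1 := hF.rho
  rw [h] at h1
  have h2 : ρ = 2 := by linear_combination -h1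
  rw [h2] at h
  have h3 : (3 : K) = 0 := by linear_combination h
  have hc : Fintype.card K = 25 := by
    rw [← Nat.card_eq_fintype_card, hF.card]; norm_num
  have h4 : ((25 : ℕ) : K) = 0 := by rw [← hc]; exact FiniteField.cast_card_eq_zero K
  have h5 : (1 : K) = 0 := by
    have : (1 : K) = ((25 : ℕ) : K) - 3 * 8 := by push_cast; ring
    rw [this, h4, h3]; ring
  exact one_ne_zero h5

lemma rho2_ne {ρ : K} (hF : F25 K ρ) : ρ * ρ ≠ ρ := by
  intro h
  exact rho_ne1 hF (mul_left_cancel₀ (rho_ne0 hF) (by rw [h, mul_one]))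

lemma neg_ne1 {ρ : K} (hF : F25 K ρ) : (-1 : K) ≠ 1 := by
  intro h
  apply F25.two hF
  linear_combination -h

lemma colz_0 {ρ : K} : H315.col ρ 1 = some 0 := by rw [H315.col, if_pos rfl]

lemma colz_1 {ρ : K} (hF : F25 K ρ) : H315.col ρ ρ = some 1 := by
  rw [H315.col, if_neg (rho_ne1 hF), if_pos rfl]

lemma colz_2 {ρ : K} (hF : F25 K ρ) : H315.col ρ (ρ * ρ) = some 2 := by
  rw [H315.col, if_neg (rho2_ne1 hF), if_neg (rho2_ne hF), if_pos rfl]

lemma colz_pow {ρ : K} (hF : F25 K ρ) (j : Fin 3) : H315.col ρ (ρ ^ j.val) = some j := by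
  fin_cases j
  · simpa using colz_0
  · simpa using colz_1 hF
  · have := colz_2 hF
    simpa [pow_two] using this

/-- two colours determine the scalar -/
lemma colz_none {ρ : K} (hF : F25 K ρ) {c : K} (hc : c ≠ 1) :
    H315.col ρ c = none ∨ H315.col ρ (c * (ρ * ρ)) = none := by
  have h3 := rho3 hF
  by_cases h1 : c = ρ
  · right
    have e : c * (ρ * ρ) = -1 := by rw [h1, ← h3]; ring
    rw [e, H315.col, if_neg (neg_ne1 hF), if_neg, if_neg]
    · intro h
      have e2 : ρ ^ 3 = ρ * ρ := by rw [h3, h]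
      have e3 : ρ * ρ * (ρ - 1) = 0 := by linear_combination e2
      rcases mul_eq_zero.1 e3 with h | h
      · exact rho_ne0 hF (mul_self_eq_zero.1 h)
      · exact rho_ne1 hF (sub_eq_zero.1 h)
    · intro h
      have e2 := hF.rho
      rw [← h] at e2
      have : (3 : K) = 0 := by linear_combination e2
      have e4 : ρ * ρ = 1 := by rw [← h]; ring
      exact rho2_ne1 hF e4
  by_cases h2 : c = ρ * ρ
  · right
    have e : c * (ρ * ρ) = -ρ := by
      rw [h2]
      have : ρ * ρ * (ρ * ρ) = ρ * ρ ^ 3 := by ring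
      rw [this, h3]; ring
    rw [e, H315.col, if_neg, if_neg, if_neg]
    · intro h
      have e3 : ρ * (ρ + 1) = 0 := by linear_combination -h
      rcases mul_eq_zero.1 e3 with h | h
      · exact rho_ne0 hF h
      · have e4 : ρ = -1 := by linear_combination h
        exact rho2_ne1 hF (by rw [e4]; ring)
    · intro h
      have : (2 : K) * ρ = 0 := by linear_combination -h
      rcases mul_eq_zero.1 this with h | h
      · exact F25.two hF h
      · exact rho_ne0 hF h
    · intro h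
      have e4 : ρ = -1 := by linear_combination -h
      exact rho2_ne1 hF (by rw [e4]; ring)
  · left
    rw [H315.col, if_neg hc, if_neg h1, if_neg h2]

/-- the fixed vector with prescribed colours -/
def wv (θ : K) (j : Fin n → Fin 3) : Fin n → K := fun i => star (θ ^ (j i).val)

lemma ltr_std {ρ θ : K} (hF : F25 K ρ) (hθ : θ * θ = ρ) (j : Fin n → Fin 3) (c : K) (i : Fin n) :
    ltr ρ (wv θ j) (c • 1) (E1 i) =
      (H315.col ρ (c * ρ ^ (j i).val)).map fun k => lc (decide ((j i).val = 1)) k := by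
  have e0 : ∀ v v' : Fin n → K, v ⬝ᵥ ((E1 i : Ln K n).1 *ᵥ v') = v i * v' i := by
    intro v v'
    rw [E1_coe, dotProduct, Finset.sum_eq_single i]
    · rw [mulVec_diagonal]; simp
    · intro b _ hb; rw [mulVec_diagonal]; simp [hb]
    · simp
  have e1 : star (wv θ j) ⬝ᵥ ((E1 i : Ln K n).1 *ᵥ wv θ j) = (-1) ^ (j i).val := by
    rw [e0, Pi.star_apply, wv, star_star, hF.star, ← rho3 hF, ← hθ]
    ring
  have e2 : star (wv θ j) ⬝ᵥ (((E1 i : Ln K n).1 * (c • 1)) *ᵥ star (wv θ j)) =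
      c * ρ ^ (j i).val := by
    rw [mul_smul_comm, mul_one, smul_mulVec, dotProduct_smul, e0, Pi.star_apply, wv, star_star,
      smul_eq_mul, ← hθ]
    ring
  rw [ltr, e1, e2]
  have hm := neg_ne1 hF
  generalize j i = k
  fin_cases k
  · simp
  · simp [hm]
  · simp

/-- **the standard frame has prescribed colours** -/
theorem u5c_map {ρ : K} (hF : F25 K ρ) (l : List Lt) (hl : ∀ a ∈ l, a.1 = false)
    (hn : l.length = n) : ∃ w : Fin n → K, (w0 K n).map (ltr ρ w 1) = l.map some ∧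
      ((false, 0) ∈ l → (false, 2) ∈ l → ∀ c : K, c ≠ 1 → ∃ P ∈ w0 K n, ltr ρ w (c • 1) P = none) := by
  obtain ⟨θ, hθ⟩ := exists_theta hF
  subst hn
  let j : Fin l.length → Fin 3 := fun i => (l.get i).2
  refine ⟨wv θ j, ?_, fun h0 h2 c hc => ?_⟩
  · apply List.ext_getElem
    · simp [w0]
    · intro i h1 h2
      have hi : i < l.length := by simpa using h2
      rw [List.getElem_map, List.getElem_map]
      have e1 : (w0 K l.length)[i]'(by simpa using h1) = E1 ⟨i, hi⟩ := by simp [w0]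
      rw [e1]
      have e2 := ltr_std hF hθ j 1 ⟨i, hi⟩
      rw [one_smul, one_mul, colz_pow hF] at e2
      rw [e2, Option.map_some]
      congr 1
      have e3 := hl (l[i]) (List.getElem_mem hi)
      show lc (decide ((l[i]).2.val = 1)) (l[i]).2 = l[i]
      generalize l[i] = a at *
      obtain ⟨b, k⟩ := a
      simp only at e3
      subst e3
      fin_cases k <;> simp [lc]
  · obtain ⟨i0, hi0, e0⟩ := List.getElem_of_mem h0
    obtain ⟨i2, hi2, e2⟩ := List.getElem_of_mem h2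
    have hj0 : j ⟨i0, hi0⟩ = 0 := by
      show (l[i0]).2 = 0
      rw [e0]
    have hj2 : j ⟨i2, hi2⟩ = 2 := by
      show (l[i2]).2 = 2
      rw [e2]
    rcases colz_none hF hc with h | h
    · refine ⟨E1 ⟨i0, hi0⟩, by simp [w0], ?_⟩
      rw [ltr_std hF hθ, hj0]
      simp [h]
    · refine ⟨E1 ⟨i2, hi2⟩, by simp [w0], ?_⟩
      rw [ltr_std hF hθ, hj2]
      have : c * ρ ^ ((2 : Fin 3) : ℕ) = c * (ρ * ρ) := by
        show c * ρ ^ 2 = _
        ring
      rw [this, h]
      rfl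

lemma L2_mem (m : ℕ) : (∀ a ∈ L2 m, a.1 = false) ∧ (false, 0) ∈ L2 m ∧ (false, 2) ∈ L2 m := by
  refine ⟨?_, by simp [L2], by simp [L2]⟩
  have : ∀ m, ∀ a ∈ oE m, a.1 = false := by
    intro m
    induction m with
    | zero => simp [oE]
    | succ m ih =>
      intro a ha
      simp only [oE, List.mem_cons] at ha
      rcases ha with rfl | rfl | ha
      · rfl
      · rfl
      · exact ih a ha
  intro a ha
  simp only [L2, List.mem_append, List.mem_cons, List.not_mem_nil, or_false] at ha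
  rcases ha with (ha | rfl) | rfl | rfl
  · exact this m a ha
  · rfl
  · rfl
  · rfl

lemma L3_mem (m : ℕ) : (∀ a ∈ L3 m, a.1 = false) ∧ (false, 0) ∈ L3 m ∧ (false, 2) ∈ L3 m := by
  refine ⟨?_, by simp [L3], by simp [L3]⟩
  have : ∀ m, ∀ a ∈ oE m, a.1 = false := by
    intro m
    induction m with
    | zero => simp [oE]
    | succ m ih =>
      intro a ha
      simp only [oE, List.mem_cons] at ha
      rcases ha with rfl | rfl | ha
      · rfl
      · rfl
      · exact ih a ha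
  intro a ha
  simp only [L3, List.mem_append, List.mem_cons, List.not_mem_nil, or_false] at ha
  rcases ha with (ha | rfl | rfl | rfl | rfl) | rfl | rfl
  · exact this m a ha
  · rfl
  · rfl
  · rfl
  · rfl
  · rfl
  · rfl

lemma RForm_one : RForm (1 : Matrix (Fin n) (Fin n) K) := by
  unfold RForm
  rw [Matrix.map_one _ (star_zero K) (star_one K), one_mul]

lemma w0_FR : w0 K n ∈ FR (1 : Matrix (Fin n) (Fin n) K) := by
  rw [FR, Finset.mem_filter]
  refine ⟨w0_mem, fun P hP => ?_⟩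
  rw [w0, List.mem_ofFn] at hP
  obtain ⟨i, rfl⟩ := hP
  rw [rl, star_one, one_mul, mul_one, E1_coe, diagonal_map (star_zero K)]
  congr 1
  funext k
  by_cases h : k = i <;> simp [h]

lemma FR_perm (s : Matrix (Fin n) (Fin n) K) : ∀ w ∈ FR s, ∀ w', w.Perm w' → w' ∈ FR s := by
  intro w hw w' h
  rw [FR, Finset.mem_filter] at hw ⊢
  refine ⟨?_, fun P hP => hw.2 P (h.mem_iff.2 hP)⟩
  obtain ⟨h1, h2⟩ := (mem_Fr K).1 hw.1
  exact (mem_Fr K).2 ⟨h.length_eq ▸ h1, H938.orth_perm h h2⟩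

/-- **(U5c)**, odd length: `z_s`, `s = c` a scalar, has a nonzero bracket at the standard frame
exactly for `c = 1` -/
theorem u5c_odd {ρ : K} (hF : F25 K ρ) (m : ℕ) (hm : n = 2 * m + 3) :
    ∃ w : Fin n → K, ev (z2 m (ltr ρ w 1) (FR (1 : Matrix (Fin n) (Fin n) K))) (w0 K n) [] [] = 1 ∧
      ∀ c : K, c ≠ 1 → ev (z2 m (ltr ρ w (c • 1)) (FR (c • (1 : Matrix (Fin n) (Fin n) K))))
        (w0 K n) [] [] = 0 := by
  obtain ⟨h1, h2, h3⟩ := L2_mem m
  obtain ⟨w, hw, hw'⟩ := u5c_map (n := n) hF (L2 m) h1 (by rw [L2_length, hm])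
  refine ⟨w, z2_ev (FR_perm _) w0_FR hw, fun c hc => ?_⟩
  exact zf_ev_none _ _ _ _ _ (hw' h2 h3 c hc)

/-- **(U5c)**, even length -/
theorem u5c_even {ρ : K} (hF : F25 K ρ) (m : ℕ) (hm : n = 2 * m + 6) :
    ∃ w : Fin n → K, ev (z3 m (ltr ρ w 1) (FR (1 : Matrix (Fin n) (Fin n) K))) (w0 K n) [] [] = 2 ∧
      ∀ c : K, c ≠ 1 → ev (z3 m (ltr ρ w (c • 1)) (FR (c • (1 : Matrix (Fin n) (Fin n) K))))
        (w0 K n) [] [] = 0 := by
  obtain ⟨h1, h2, h3⟩ := L3_mem m
  obtain ⟨w, hw, hw'⟩ := u5c_map (n := n) hF (L3 m) h1 (by rw [L3_length, hm])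
  refine ⟨w, z3_ev (FR_perm _) w0_FR hw, fun c hc => ?_⟩
  exact zf_ev_none _ _ _ _ _ (hw' h2 h3 c hc)

end

end

end Vale.Agent.P240.R2.H584
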