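import Mathlib

/-!
Superderivations of free algebras, in dual form: operators on the functions on words.
-/

set_option autoImplicit false
set_option linter.all false

namespace Vale.Agent.P240.R2.H584

universe u

/-- functions on words -/
abbrev Fn (Γ : Type u) : Type u := List Γ → ℚ

/-- tables: a letter is sent to a formal sum of words -/
abbrev Tb (Γ : Type u) : Type u := Γ → List (ℚ × List Γ)

section
variable {Γ : Type u}

/-- the value of a function on a formal sum -/
def fs (s : List (ℚ × List Γ)) (f : Fn Γ) : ℚ := (s.map fun x => x.1 * f x.2).sum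

@[simp] lemma fs_nil (f : Fn Γ) : fs ([] : List (ℚ × List Γ)) f = 0 := rfl

@[simp] lemma fs_cons (x : ℚ × List Γ) (s : List (ℚ × List Γ)) (f : Fn Γ) :
    fs (x :: s) f = x.1 * f x.2 + fs s f := by simp [fs]

lemma fs_add (s : List (ℚ × List Γ)) (f g : Fn Γ) :
    fs s (fun v => f v + g v) = fs s f + fs s g := by
  induction s with
  | nil => simp
  | cons x s ih => rw [fs_cons, fs_cons, fs_cons, ih]; ring

lemma fs_smul (s : List (ℚ × List Γ)) (c : ℚ) (f : Fn Γ) :
    fs s (fun v => c * f v) = c * fs s f := by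
  induction s with
  | nil => simp
  | cons x s ih => rw [fs_cons, fs_cons, ih]; ring

lemma fs_congr {s : List (ℚ × List Γ)} {f g : Fn Γ} (h : ∀ x ∈ s, f x.2 = g x.2) :
    fs s f = fs s g := by
  induction s with
  | nil => simp
  | cons x s ih =>
    rw [fs_cons, fs_cons, ih fun y hy => h y (by simp [hy]), h x (by simp)]

variable (ε : Γ → ℚ)

/-- the sign of a word -/
def sg (w : List Γ) : ℚ := (w.map ε).prod

@[simp] lemma sg_nil : sg ε [] = 1 := rfl

@[simp] lemma sg_cons (c : Γ) (w : List Γ) : sg ε (c :: w) = ε c * sg ε w := by simp [sg]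

lemma sg_append (u w : List Γ) : sg ε (u ++ w) = sg ε u * sg ε w := by simp [sg]

/-- the value of a function on `D(w)`, `D` the derivation with table `A` -/
def dv (A : Tb Γ) : List Γ → Fn Γ → ℚ
  | [], _ => 0
  | c :: w, f => fs (A c) (fun s => f (s ++ w)) + ε c * dv A w (fun v => f (c :: v))

lemma dv_nil (A : Tb Γ) (f : Fn Γ) : dv ε A [] f = 0 := rfl

lemma dv_cons (A : Tb Γ) (c : Γ) (w : List Γ) (f : Fn Γ) :
    dv ε A (c :: w) f = fs (A c) (fun s => f (s ++ w)) + ε c * dv ε A w (fun v => f (c :: v)) :=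
  rfl

lemma dv_add (A : Tb Γ) (w : List Γ) : ∀ f g : Fn Γ,
    dv ε A w (fun v => f v + g v) = dv ε A w f + dv ε A w g := by
  induction w with
  | nil => intro f g; simp [dv_nil]
  | cons c w ih =>
    intro f g
    rw [dv_cons, dv_cons, dv_cons, ih (fun v => f (c :: v)) (fun v => g (c :: v)),
      fs_add (A c) (fun s => f (s ++ w)) (fun s => g (s ++ w))]
    ring

lemma dv_smul (A : Tb Γ) (w : List Γ) : ∀ (k : ℚ) (f : Fn Γ),
    dv ε A w (fun v => k * f v) = k * dv ε A w f := by
  induction w with
  | nil => intro k f; simp [dv_nil]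
  | cons c w ih =>
    intro k f
    rw [dv_cons, dv_cons, ih k (fun v => f (c :: v)), fs_smul (A c) k (fun s => f (s ++ w))]
    ring

lemma dv_zero (A : Tb Γ) (w : List Γ) : dv ε A w (fun _ => 0) = 0 := by
  have := dv_smul ε A w 0 (fun _ => 0)
  simpa using this

/-- the operator of a table -/
def R (A : Tb Γ) : Module.End ℚ (Fn Γ) where
  toFun f := fun w => dv ε A w f
  map_add' f g := by funext w; exact dv_add ε A w f g
  map_smul' k f := by funext w; exact dv_smul ε A w k f

lemma R_apply (A : Tb Γ) (f : Fn Γ) (w : List Γ) : R ε A f w = dv ε A w f := rfl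

lemma R_nil (A : Tb Γ) (f : Fn Γ) : R ε A f [] = 0 := rfl

lemma R_cons (A : Tb Γ) (f : Fn Γ) (c : Γ) (w : List Γ) : R ε A f (c :: w) =
    fs (A c) (fun s => f (s ++ w)) + ε c * R ε A (fun v => f (c :: v)) w := rfl

lemma dv_append (A : Tb Γ) (u w : List Γ) : ∀ f : Fn Γ, dv ε A (u ++ w) f =
    dv ε A u (fun s => f (s ++ w)) + sg ε u * dv ε A w (fun v => f (u ++ v)) := by
  induction u with
  | nil => intro f; simp [dv_nil]
  | cons c u ih =>
    intro f
    rw [List.cons_append, dv_cons, dv_cons, ih, sg_cons]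
    simp only [List.append_assoc, List.cons_append]
    ring

/-- a linear form may be exchanged with a derivation -/
lemma dv_lin (A : Tb Γ) (b : Fn Γ →ₗ[ℚ] ℚ) (w : List Γ) : ∀ F : List Γ → Fn Γ,
    dv ε A w (fun v => b (F v)) = b (fun u => dv ε A w (fun v => F v u)) := by
  have hfs : ∀ (s : List (ℚ × List Γ)) (F : List Γ → Fn Γ),
      fs s (fun v => b (F v)) = b (fun u => fs s (fun v => F v u)) := by
    intro s F
    induction s with
    | nil => simp only [fs_nil]; exact (map_zero b).symm
    | cons x s ih =>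
      rw [fs_cons, ih]
      have : (fun u => fs (x :: s) (fun v => F v u)) =
          x.1 • F x.2 + fun u => fs s (fun v => F v u) := by
        funext u
        rw [fs_cons]; rfl
      rw [this, map_add, map_smul, smul_eq_mul]
  induction w with
  | nil => intro F; simp only [dv_nil]; exact (map_zero b).symm
  | cons c w ih =>
    intro F
    rw [dv_cons, hfs (A c) (fun s => F (s ++ w)), ih (fun v => F (c :: v))]
    have : (fun u => dv ε A (c :: w) (fun v => F v u)) =
        (fun u => fs (A c) (fun v => F (v ++ w) u)) +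
          ε c • (fun u => dv ε A w (fun v => F (c :: v) u)) := by
      funext u
      rw [dv_cons]; rfl
    rw [this, map_add, map_smul, smul_eq_mul]

/-- the derivation is odd -/
def OddT (A : Tb Γ) : Prop := ∀ c, ∀ x ∈ A c, sg ε x.2 = - ε c

variable {ε}

lemma dv_sg {A : Tb Γ} (hA : OddT ε A) (w : List Γ) : ∀ f : Fn Γ,
    dv ε A w (fun v => sg ε v * f v) = - (sg ε w * dv ε A w f) := by
  induction w with
  | nil => intro f; simp [dv_nil]
  | cons c w ih =>
    intro f
    rw [dv_cons, dv_cons]
    have h1 : fs (A c) (fun s => sg ε (s ++ w) * f (s ++ w)) =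
        fs (A c) (fun s => -(ε c * sg ε w) * f (s ++ w)) := by
      refine fs_congr fun x hx => ?_
      rw [sg_append, hA c x hx]; ring
    have h2 : (fun v => sg ε (c :: v) * f (c :: v)) =
        fun v => ε c * (sg ε v * f (c :: v)) := by
      funext v; rw [sg_cons]; ring
    rw [h1, fs_smul (A c) _ (fun s => f (s ++ w)), h2, dv_smul, ih (fun v => f (c :: v)), sg_cons]
    ring

/-- even derivations, in dual form -/
structure EvDer (E : Fn Γ → Fn Γ) (C : Γ → Fn Γ → ℚ) : Prop where
  nil : ∀ f, E f [] = 0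
  cons : ∀ f c w, E f (c :: w) = C c (fun s => f (s ++ w)) + E (fun v => f (c :: v)) w

lemma EvDer.unique {E E' : Fn Γ → Fn Γ} {C : Γ → Fn Γ → ℚ} (h : EvDer E C) (h' : EvDer E' C) :
    E = E' := by
  funext f w
  induction w generalizing f with
  | nil => rw [h.nil, h'.nil]
  | cons c w ih => rw [h.cons, h'.cons, ih]

lemma EvDer.add {E E' : Fn Γ → Fn Γ} {C C' : Γ → Fn Γ → ℚ} (h : EvDer E C) (h' : EvDer E' C') :
    EvDer (fun f w => E f w + E' f w) (fun c f => C c f + C' c f) where
  nil f := by rw [h.nil, h'.nil, add_zero]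
  cons f c w := by rw [h.cons, h'.cons]; ring

lemma EvDer.zero : EvDer (fun (_ : Fn Γ) _ => 0) (fun _ _ => 0) where
  nil _ := rfl
  cons _ _ _ := by simp

/-- the anticommutator on letters -/
def cv (ε : Γ → ℚ) (A B : Tb Γ) (c : Γ) (f : Fn Γ) : ℚ :=
  fs (A c) (fun s => dv ε B s f) + fs (B c) (fun s => dv ε A s f)

/-- **the anticommutator of two odd derivations is an even derivation** -/
theorem anti (hε : ∀ c, ε c * ε c = 1) {A B : Tb Γ} (hA : OddT ε A) (hB : OddT ε B) :
    EvDer (fun f w => R ε A (R ε B f) w + R ε B (R ε A f) w) (cv ε A B) where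
  nil f := by simp only [R_nil, add_zero]
  cons f c w := by
    have key : ∀ A B : Tb Γ, OddT ε A → OddT ε B → R ε A (R ε B f) (c :: w) =
        fs (A c) (fun s => dv ε B s (fun s' => f (s' ++ w))) -
          ε c * fs (A c) (fun s => dv ε B w (fun v => f (s ++ v))) +
          ε c * fs (B c) (fun s => dv ε A w (fun v => f (s ++ v))) +
          R ε A (R ε B (fun v => f (c :: v))) w := by
      intro A B hA hB
      rw [R_cons]
      have h1 : fs (A c) (fun s => R ε B f (s ++ w)) =
          fs (A c) (fun s => dv ε B s (fun s' => f (s' ++ w)) +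
            (-ε c) * dv ε B w (fun v => f (s ++ v))) := by
        refine fs_congr fun x hx => ?_
        show dv ε B (x.2 ++ w) f = _
        rw [dv_append, hA c x hx]
      have h2 : (fun v => R ε B f (c :: v)) = fun v =>
          fs (B c) (fun s => f (s ++ v)) + ε c * R ε B (fun v => f (c :: v)) v := by
        funext v; rw [R_cons]
      have h3 : R ε A (fun v => R ε B f (c :: v)) w =
          fs (B c) (fun s => dv ε A w (fun v => f (s ++ v))) +
            ε c * R ε A (R ε B (fun v => f (c :: v))) w := by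
        rw [h2]
        show dv ε A w _ = _
        rw [dv_add ε A w (fun v => fs (B c) (fun s => f (s ++ v)))
          (fun v => ε c * R ε B (fun v => f (c :: v)) v), dv_smul]
        congr 1
        have h4 := dv_lin ε A (w := w)
          (b := { toFun := fun g => fs (B c) g, map_add' := fun g g' => fs_add _ g g',
                  map_smul' := fun k g => fs_smul _ k g }) (fun v s => f (s ++ v))
        exact h4
      rw [h1, fs_add, fs_smul, h3, mul_add, ← mul_assoc, hε, one_mul]
      ring
    rw [key A B hA hB, key B A hB hA, cv]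
    ring

/-- two odd derivations anticommute if they do so on the letters -/
theorem anti_zero (hε : ∀ c, ε c * ε c = 1) {A B : Tb Γ} (hA : OddT ε A) (hB : OddT ε B)
    (h : ∀ c f, cv ε A B c f = 0) : R ε A * R ε B + R ε B * R ε A = 0 := by
  refine LinearMap.ext fun f => ?_
  funext w
  have h1 := anti hε hA hB
  have h2 : cv ε A B = fun _ _ => 0 := by funext c f; exact h c f
  rw [h2] at h1
  exact congrFun (congrFun (h1.unique EvDer.zero) f) w

/-- the sum of two anticommutators vanishes if it does so on the letters -/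
theorem anti_sum (hε : ∀ c, ε c * ε c = 1) {A B A' B' : Tb Γ} (hA : OddT ε A) (hB : OddT ε B)
    (hA' : OddT ε A') (hB' : OddT ε B') (h : ∀ c f, cv ε A B c f + cv ε A' B' c f = 0) :
    R ε A * R ε B + R ε B * R ε A + (R ε A' * R ε B' + R ε B' * R ε A') = 0 := by
  refine LinearMap.ext fun f => ?_
  funext w
  have h1 := (anti hε hA hB).add (anti hε hA' hB')
  have h2 : (fun c f => cv ε A B c f + cv ε A' B' c f) = fun _ _ => 0 := by
    funext c f; exact h c f
  rw [h2] at h1
  exact congrFun (congrFun (h1.unique EvDer.zero) f) w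

/-- elements of parity `n`, as linear forms -/
def Par (ε : Γ → ℚ) (n : ℕ) (b : Fn Γ →ₗ[ℚ] ℚ) : Prop :=
  ∀ g : Fn Γ, b (fun u => sg ε u * g u) = (-1) ^ n * b g

/-- the adjoint action of an element of parity `n` -/
def Ad (ε : Γ → ℚ) (n : ℕ) (b : Fn Γ →ₗ[ℚ] ℚ) (f : Fn Γ) (w : List Γ) : ℚ :=
  b (fun u => f (u ++ w)) - sg ε w ^ n * b (fun u => f (w ++ u))

lemma Par.comp {n : ℕ} {b : Fn Γ →ₗ[ℚ] ℚ} (hb : Par ε n b) {A : Tb Γ} (hA : OddT ε A) :
    Par ε (n + 1) (b.comp (R ε A)) := by
  intro g
  have h1 : R ε A (fun u => sg ε u * g u) = (-1 : ℚ) • fun u => sg ε u * R ε A g u := by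
    funext w
    show dv ε A w _ = -1 * (sg ε w * dv ε A w g)
    rw [dv_sg hA]; ring
  rw [LinearMap.comp_apply, h1, map_smul, hb, LinearMap.comp_apply, smul_eq_mul, pow_succ]
  ring

lemma sg_sq (hε : ∀ c, ε c * ε c = 1) (w : List Γ) : sg ε w * sg ε w = 1 := by
  induction w with
  | nil => simp
  | cons c w ih =>
    rw [sg_cons]
    calc ε c * sg ε w * (ε c * sg ε w) = (ε c * ε c) * (sg ε w * sg ε w) := by ring
      _ = 1 := by rw [hε, ih, mul_one]

/-- **commutator of an odd derivation and an adjoint action** -/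
theorem ad_comm (hε : ∀ c, ε c * ε c = 1) {A : Tb Γ} (hA : OddT ε A) {n : ℕ}
    {b : Fn Γ →ₗ[ℚ] ℚ} (hb : Par ε n b) (f : Fn Γ) (w : List Γ) :
    Ad ε n b (R ε A f) w + (-1) ^ (n + 1) * R ε A (Ad ε n b f) w =
      Ad ε (n + 1) (b.comp (R ε A)) f w := by
  -- the four terms
  have e1 : b (fun u => R ε A f (u ++ w)) = b (R ε A (fun s => f (s ++ w))) +
      (-1) ^ n * b (fun u => dv ε A w (fun v => f (u ++ v))) := by
    have h1 : (fun u => R ε A f (u ++ w)) = R ε A (fun s => f (s ++ w)) +
        fun u => sg ε u * dv ε A w (fun v => f (u ++ v)) := by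
      funext u
      exact dv_append ε A u w f
    rw [h1, map_add, hb]
  have e2 : b (fun u => R ε A f (w ++ u)) = b (fun u => dv ε A w (fun v => f (v ++ u))) +
      sg ε w * b (R ε A (fun v => f (w ++ v))) := by
    have h1 : (fun u => R ε A f (w ++ u)) = (fun u => dv ε A w (fun v => f (v ++ u))) +
        sg ε w • R ε A (fun v => f (w ++ v)) := by
      funext u
      exact dv_append ε A w u f
    rw [h1, map_add, map_smul, smul_eq_mul]
  have e3 : R ε A (Ad ε n b f) w = b (fun u => dv ε A w (fun v => f (u ++ v))) -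
      (-1) ^ n * (sg ε w ^ n * b (fun u => dv ε A w (fun v => f (v ++ u)))) := by
    show dv ε A w (fun v => b (fun u => f (u ++ v)) - sg ε v ^ n * b (fun u => f (v ++ u))) = _
    have h1 : (fun v => b (fun u => f (u ++ v)) - sg ε v ^ n * b (fun u => f (v ++ u))) =
        fun v => b (fun u => f (u ++ v)) + (-1) * (sg ε v ^ n * b (fun u => f (v ++ u))) := by
      funext v; ring
    rw [h1, dv_add ε A w (fun v => b (fun u => f (u ++ v)))
      (fun v => (-1) * (sg ε v ^ n * b (fun u => f (v ++ u)))), dv_smul,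
      dv_lin ε A b w (fun v u => f (u ++ v))]
    have h2 : ∀ (m : ℕ) (g : Fn Γ), dv ε A w (fun v => sg ε v ^ m * g v) =
        (-1) ^ m * (sg ε w ^ m * dv ε A w g) := by
      intro m
      induction m with
      | zero => intro g; simp
      | succ m ih =>
        intro g
        have h3 : (fun v => sg ε v ^ (m + 1) * g v) = fun v => sg ε v ^ m * (sg ε v * g v) := by
          funext v; rw [pow_succ]; ring
        rw [h3, ih, dv_sg hA, pow_succ, pow_succ]
        ring
    rw [h2 n (fun v => b (fun u => f (v ++ u))), dv_lin ε A b w (fun v u => f (v ++ u))]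
    ring
  have hs := sg_sq hε w
  have hm : ((-1 : ℚ) ^ n) * (-1) ^ n = 1 := by
    rw [← mul_pow]; norm_num
  show b (fun u => R ε A f (u ++ w)) - sg ε w ^ n * b (fun u => R ε A f (w ++ u)) +
    (-1) ^ (n + 1) * R ε A (Ad ε n b f) w = b (R ε A (fun u => f (u ++ w))) -
      sg ε w ^ (n + 1) * b (R ε A (fun u => f (w ++ u)))
  rw [e1, e2, e3, pow_succ, pow_succ]
  linear_combination (-(sg ε w ^ n * b (fun u => dv ε A w (fun v => f (v ++ u))))) * (-1) * hm

end

end Vale.Agent.P240.R2.H584
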