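import Vale.Agent.P240.R2.H584.Sol

/-!
The values of iterated brackets in the two models.
-/

set_option autoImplicit false
set_option linter.all false

namespace Vale.Agent.P240.R2.H584

universe u

noncomputable section

section
variable {Γ : Type u} {ε : Γ → ℚ}

lemma Ad_even (hε : ∀ c, ε c * ε c = 1) (b : Fn Γ →ₗ[ℚ] ℚ) :
    EvDer (fun f w => Ad ε 2 b f w)
      (fun c f => b (fun u => f (u ++ [c])) - b (fun u => f (c :: u))) where
  nil f := by
    simp [Ad]
  cons f c w := by
    have h1 := sg_sq hε (c :: w)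
    have h2 := sg_sq hε w
    simp only [Ad, pow_two, h1, h2, one_mul, List.append_assoc, List.cons_append, List.nil_append]
    ring

/-- **iterated brackets are adjoint actions** -/
theorem bo_ad (hε : ∀ c, ε c * ε c = 1) {T : Lt → Tb Γ} (hT : ∀ a, OddT ε (T a)) {x y : Lt}
    {b : Fn Γ →ₗ[ℚ] ℚ} (hb : Par ε 2 b)
    (hxy : ∀ c f, cv ε (T y) (T x) c f = b (fun u => f (u ++ [c])) - b (fun u => f (c :: u)))
    (o : List Lt) : Par ε (o.length + 2) (b.comp (PR (fun a => R ε (T a)) o)) ∧ ∀ f w,
      Bo (fun a => R ε (T a)) (o ++ [x, y]) f w =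
        Ad ε (o.length + 2) (b.comp (PR (fun a => R ε (T a)) o)) f w := by
  induction o with
  | nil =>
    have hb1 : b.comp (PR (fun a => R ε (T a)) []) = b := by
      rw [PR_nil]; exact LinearMap.comp_id b
    rw [hb1]
    refine ⟨hb, fun f w => ?_⟩
    have h1 := anti hε (hT y) (hT x)
    have h2 : cv ε (T y) (T x) = fun c f =>
        b (fun u => f (u ++ [c])) - b (fun u => f (c :: u)) := by
      funext c f; exact hxy c f
    rw [h2] at h1
    have h3 := congrFun (congrFun (h1.unique (Ad_even hε b)) f) w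
    rw [List.nil_append, Bo_cons _ _ (by simp), Bo_single, List.length_singleton]
    simp only [LinearMap.add_apply, LinearMap.smul_apply, Module.End.mul_apply, Pi.add_apply,
      Pi.smul_apply, smul_eq_mul]
    have h4 : ((-1 : ℚ)) ^ (1 + 1) = 1 := by norm_num
    rw [h4, one_mul]
    exact h3
  | cons a o ih =>
    obtain ⟨ih1, ih2⟩ := ih
    have e1 : b.comp (PR (fun a => R ε (T a)) (a :: o)) =
        (b.comp (PR (fun a => R ε (T a)) o)).comp (R ε (T a)) := by
      rw [PR_cons]
      rfl
    refine ⟨?_, fun f w => ?_⟩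
    · rw [e1]
      exact ih1.comp (hT a)
    · rw [e1, List.cons_append, Bo_cons _ _ (by simp), List.length_append]
      simp only [LinearMap.add_apply, LinearMap.smul_apply, Module.End.mul_apply, Pi.add_apply,
        Pi.smul_apply, smul_eq_mul]
      have h1 := ad_comm hε (hT a) ih1 f w
      rw [show (a :: o).length + 2 = o.length + 2 + 1 by simp, ← h1, ih2]
      congr 2
      have h2 : Bo (fun a => R ε (T a)) (o ++ [x, y]) f =
          Ad ε (o.length + 2) (b.comp (PR (fun a => R ε (T a)) o)) f := by
        funext w; exact ih2 f w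
      rw [h2]

/-- prefixing a letter -/
def pre [DecidableEq Γ] (c : Γ) (g : Fn Γ) : Fn Γ
  | [] => 0
  | d :: w => if d = c then g w else 0

/-- the indicator of a word -/
def iw [DecidableEq Γ] : List Γ → Fn Γ
  | [] => fun w => if w = [] then 1 else 0
  | c :: s => pre c (iw s)

variable [DecidableEq Γ]

lemma iw_nil (w : List Γ) : iw ([] : List Γ) w = if w = [] then 1 else 0 := rfl

lemma iw_cons (c : Γ) (s : List Γ) : iw (c :: s) = pre c (iw s) := rfl

@[simp] lemma pre_nil (c : Γ) (g : Fn Γ) : pre c g [] = 0 := rfl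

@[simp] lemma pre_cons (c d : Γ) (g : Fn Γ) (w : List Γ) :
    pre c g (d :: w) = if d = c then g w else 0 := rfl

lemma iw_eq (s : List Γ) : ∀ w, iw s w = if w = s then 1 else 0 := by
  induction s with
  | nil => intro w; rfl
  | cons c s ih =>
    intro w
    cases w with
    | nil => simp [iw_cons]
    | cons d w =>
      rw [iw_cons, pre_cons, ih]
      by_cases h : d = c
      · subst h; simp
      · simp [h]

lemma pre_zero (c : Γ) : pre c (0 : Fn Γ) = 0 := by
  funext w
  cases w with
  | nil => rfl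
  | cons d w => simp

lemma pre_sub (c : Γ) (f g : Fn Γ) : pre c (f - g) = pre c f - pre c g := by
  funext w
  cases w with
  | nil => simp
  | cons d w =>
    simp only [pre_cons, Pi.sub_apply]
    split_ifs <;> ring

end

/-! ### the first model -/

section one

/-- the derivations of the first model -/
abbrev M1 : Lt → Module.End ℚ (Fn Bool) := fun a => R e1 (T1 a)

/-- the indicator of `αᵖ βᵠ` -/
def ip (p q : ℕ) : Fn Bool := iw (List.replicate p false ++ List.replicate q true)

lemma ip_succ (p q : ℕ) : ip (p + 1) q = pre false (ip p q) := by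
  rw [ip, List.replicate_succ, List.cons_append, iw_cons]; rfl

lemma ip_zero_succ (q : ℕ) : ip 0 (q + 1) = pre true (ip 0 q) := by
  rw [ip, List.replicate_zero, List.nil_append, List.replicate_succ, iw_cons]; rfl

lemma ip_zero_zero (w : List Bool) : ip 0 0 w = if w = [] then 1 else 0 := rfl

lemma ip0_false (q : ℕ) (w : List Bool) : ip 0 q (false :: w) = 0 := by
  cases q with
  | zero => rfl
  | succ q => rw [ip_zero_succ]; rfl

lemma R_zero {Γ : Type u} (ε : Γ → ℚ) (A : Tb Γ) (w : List Γ) : R ε A (fun _ => 0) w = 0 :=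
  dv_zero ε A w

/-- `α ↦ αα` -/
lemma r00 (p q : ℕ) : M1 (false, 0) (ip (p + 1) q) = (if Odd p then (1 : ℚ) else 0) • ip p q ∧
    M1 (false, 0) (ip 0 q) = 0 := by
  have h0 : ∀ q, M1 (false, 0) (ip 0 q) = 0 := by
    intro q
    induction q with
    | zero =>
      funext w
      cases w with
      | nil => rfl
      | cons c w =>
        show R e1 (T1 (false, 0)) _ _ = _
        have : (fun v => ip 0 0 (c :: v)) = fun _ => 0 := by
          funext v; rw [ip_zero_zero]; simp
        rw [R_cons, this, R_zero]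
        cases c <;> simp [T1, ip_zero_zero]
    | succ q ih =>
      funext w
      cases w with
      | nil => rfl
      | cons c w =>
        show R e1 (T1 (false, 0)) _ _ = _
        rw [R_cons]
        cases c with
        | false =>
          have : (fun v => ip 0 (q + 1) (false :: v)) = fun _ => 0 := by
            funext v; rw [ip0_false]
          rw [this, R_zero]
          simp [T1, ip0_false]
        | true =>
          have : (fun v => ip 0 (q + 1) (true :: v)) = ip 0 q := by
            funext v; rw [ip_zero_succ]; rfl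
          rw [this]
          have h1 := congrFun ih w
          have h2 : R e1 (T1 (false, 0)) (ip 0 q) w = 0 := h1
          rw [h2]
          simp [T1]
  refine ⟨?_, h0 q⟩
  induction p with
  | zero =>
    funext w
    cases w with
    | nil => simp [R_nil]
    | cons c w =>
      show R e1 (T1 (false, 0)) _ _ = _
      rw [R_cons]
      cases c with
      | false =>
        have : (fun v => ip (0 + 1) q (false :: v)) = ip 0 q := by
          funext v; rw [ip_succ]; rfl
        rw [this]
        have h2 : R e1 (T1 (false, 0)) (ip 0 q) w = 0 := congrFun (h0 q) w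
        rw [h2]
        simp [T1, ip_succ, ip0_false]
      | true =>
        have : (fun v => ip (0 + 1) q (true :: v)) = fun _ => 0 := by
          funext v; rw [ip_succ]; rfl
        rw [this, R_zero]
        simp [T1]
  | succ p ih =>
    funext w
    cases w with
    | nil => simp [R_nil, ip_succ]
    | cons c w =>
      show R e1 (T1 (false, 0)) _ _ = _
      rw [R_cons]
      cases c with
      | false =>
        have : (fun v => ip (p + 1 + 1) q (false :: v)) = ip (p + 1) q := by
          funext v; rw [ip_succ]; rfl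
        rw [this]
        have h2 : R e1 (T1 (false, 0)) (ip (p + 1) q) w =
            ((if Odd p then (1 : ℚ) else 0) • ip p q) w := congrFun ih w
        rw [h2]
        by_cases hp : Odd p
        · have h3 : ¬ Odd (p + 1) := by
            rw [Nat.odd_add_one]; exact not_not.2 hp
          simp [T1, ip_succ, hp, h3, e1]
        · have h3 : Odd (p + 1) := by
            rw [Nat.odd_add_one]; exact hp
          simp [T1, ip_succ, hp, h3, e1]
      | true =>
        have : (fun v => ip (p + 1 + 1) q (true :: v)) = fun _ => 0 := by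
          funext v; rw [ip_succ]; rfl
        rw [this, R_zero]
        simp [T1, ip_succ]

/-- `β ↦ ββ` -/
lemma r10 (p q : ℕ) : M1 (true, 0) (ip p (q + 1)) =
    ((-1) ^ p * if Odd q then (1 : ℚ) else 0) • ip p q ∧ M1 (true, 0) (ip p 0) = 0 := by
  induction p with
  | zero =>
    have h0 : M1 (true, 0) (ip 0 0) = 0 := by
      funext w
      cases w with
      | nil => rfl
      | cons c w =>
        show R e1 (T1 (true, 0)) _ _ = _
        have : (fun v => ip 0 0 (c :: v)) = fun _ => 0 := by
          funext v; rw [ip_zero_zero]; simp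
        rw [R_cons, this, R_zero]
        cases c <;> simp [T1, ip_zero_zero]
    refine ⟨?_, h0⟩
    induction q with
    | zero =>
      funext w
      cases w with
      | nil => simp [R_nil]
      | cons c w =>
        show R e1 (T1 (true, 0)) _ _ = _
        rw [R_cons]
        cases c with
        | true =>
          have : (fun v => ip 0 (0 + 1) (true :: v)) = ip 0 0 := by
            funext v; rw [ip_zero_succ]; rfl
          rw [this]
          have h2 : R e1 (T1 (true, 0)) (ip 0 0) w = 0 := congrFun h0 w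
          rw [h2]
          simp [T1, ip_zero_succ, ip_zero_zero]
        | false =>
          have : (fun v => ip 0 (0 + 1) (false :: v)) = fun _ => 0 := by
            funext v; rw [ip0_false]
          rw [this, R_zero]
          simp [T1]
    | succ q ih =>
      funext w
      cases w with
      | nil => simp [R_nil, ip_zero_succ]
      | cons c w =>
        show R e1 (T1 (true, 0)) _ _ = _
        rw [R_cons]
        cases c with
        | true =>
          have : (fun v => ip 0 (q + 1 + 1) (true :: v)) = ip 0 (q + 1) := by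
            funext v; rw [ip_zero_succ]; rfl
          rw [this]
          have h2 : R e1 (T1 (true, 0)) (ip 0 (q + 1)) w =
              (((-1) ^ 0 * if Odd q then (1 : ℚ) else 0) • ip 0 q) w := congrFun ih w
          rw [h2]
          by_cases hp : Odd q
          · have h3 : ¬ Odd (q + 1) := by
              rw [Nat.odd_add_one]; exact not_not.2 hp
            simp [T1, ip_zero_succ, hp, h3, e1]
          · have h3 : Odd (q + 1) := by
              rw [Nat.odd_add_one]; exact hp
            simp [T1, ip_zero_succ, hp, h3, e1]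
        | false =>
          have : (fun v => ip 0 (q + 1 + 1) (false :: v)) = fun _ => 0 := by
            funext v; rw [ip0_false]
          rw [this, R_zero]
          simp [T1, ip0_false]
  | succ p ih =>
    obtain ⟨ih1, ih2⟩ := ih
    constructor
    · funext w
      cases w with
      | nil => simp [R_nil, ip_succ]
      | cons c w =>
        show R e1 (T1 (true, 0)) _ _ = _
        rw [R_cons]
        cases c with
        | false =>
          have : (fun v => ip (p + 1) (q + 1) (false :: v)) = ip p (q + 1) := by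
            funext v; rw [ip_succ]; rfl
          rw [this]
          have h2 : R e1 (T1 (true, 0)) (ip p (q + 1)) w =
              (((-1) ^ p * if Odd q then (1 : ℚ) else 0) • ip p q) w := congrFun ih1 w
          rw [h2]
          simp [T1, ip_succ, e1, pow_succ]
        | true =>
          have : (fun v => ip (p + 1) (q + 1) (true :: v)) = fun _ => 0 := by
            funext v; rw [ip_succ]; rfl
          rw [this, R_zero]
          simp [T1, ip_succ]
    · funext w
      cases w with
      | nil => simp [R_nil]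
      | cons c w =>
        show R e1 (T1 (true, 0)) _ _ = _
        rw [R_cons]
        cases c with
        | false =>
          have : (fun v => ip (p + 1) 0 (false :: v)) = ip p 0 := by
            funext v; rw [ip_succ]; rfl
          rw [this]
          have h2 : R e1 (T1 (true, 0)) (ip p 0) w = 0 := congrFun ih2 w
          rw [h2]
          simp [T1]
        | true =>
          have : (fun v => ip (p + 1) 0 (true :: v)) = fun _ => 0 := by
            funext v; rw [ip_succ]; rfl
          rw [this, R_zero]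
          simp [T1, ip_succ]

/-- `D_{f1} + D_{f0}` is the bracket with `α` -/
lemma inn_a (w : List Bool) : ∀ f : Fn Bool, dv e1 (T1 (false, 1)) w f + dv e1 (T1 (false, 0)) w f =
    f (false :: w) - sg e1 w * f (w ++ [false]) := by
  induction w with
  | nil => intro f; simp [dv_nil]
  | cons c w ih =>
    intro f
    have h := ih (fun v => f (c :: v))
    rw [dv_cons, dv_cons, sg_cons, List.cons_append]
    cases c
    · simp only [T1, Bool.false_eq_true, if_false, fs_cons, fs_nil, e1, List.cons_append,
        List.nil_append] at h ⊢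
      linear_combination (-1 : ℚ) * h
    · simp only [T1, if_true, fs_cons, fs_nil, e1, List.cons_append, List.nil_append] at h ⊢
      linear_combination (-1 : ℚ) * h

/-- `D_{f2} + D_{t0}` is the bracket with `β` -/
lemma inn_b (w : List Bool) : ∀ f : Fn Bool, dv e1 (T1 (false, 2)) w f + dv e1 (T1 (true, 0)) w f =
    f (true :: w) - sg e1 w * f (w ++ [true]) := by
  induction w with
  | nil => intro f; simp [dv_nil]
  | cons c w ih =>
    intro f
    have h := ih (fun v => f (c :: v))
    rw [dv_cons, dv_cons, sg_cons, List.cons_append]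
    cases c
    · simp only [T1, Bool.false_eq_true, if_false, fs_cons, fs_nil, e1, List.cons_append,
        List.nil_append] at h ⊢
      linear_combination (-1 : ℚ) * h
    · simp only [T1, if_true, fs_cons, fs_nil, e1, List.cons_append, List.nil_append] at h ⊢
      linear_combination (-1 : ℚ) * h

lemma ip_append_false (p q : ℕ) (w : List Bool) : ip p (q + 1) (w ++ [false]) = 0 := by
  rw [ip, iw_eq, if_neg]
  intro h
  rw [show List.replicate (q + 1) true = List.replicate q true ++ [true] from
    List.replicate_succ', ← List.append_assoc] at h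
  have := List.append_inj_right' h rfl
  simp at this

lemma ip_append_true (p q : ℕ) (w : List Bool) : ip p (q + 1) (w ++ [true]) = ip p q w := by
  rw [ip, iw_eq, ip, iw_eq]
  congr 1
  rw [show List.replicate (q + 1) true = List.replicate q true ++ [true] from
    List.replicate_succ', ← List.append_assoc, List.append_left_inj]

lemma r01 (p q : ℕ) : M1 (false, 1) (ip (p + 1) (q + 1)) =
    (if Odd p then (0 : ℚ) else 1) • ip p (q + 1) := by
  funext w
  have h1 := inn_a w (ip (p + 1) (q + 1))
  have h2 : dv e1 (T1 (false, 0)) w (ip (p + 1) (q + 1)) =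
      ((if Odd p then (1 : ℚ) else 0) • ip p (q + 1)) w := congrFun (r00 p (q + 1)).1 w
  have h3 : ip (p + 1) (q + 1) (false :: w) = ip p (q + 1) w := by rw [ip_succ]; simp
  rw [h2, h3, ip_append_false, mul_zero, sub_zero] at h1
  show dv e1 (T1 (false, 1)) w _ = _
  by_cases hp : Odd p
  · simp [hp] at h1 ⊢; exact h1
  · simp [hp] at h1 ⊢; exact h1

lemma ip_sg (p q : ℕ) (w : List Bool) : sg e1 w * ip p q w = (-1) ^ (p + q) * ip p q w := by
  rw [ip, iw_eq]
  by_cases h : w = List.replicate p false ++ List.replicate q true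
  · subst h
    rw [if_pos rfl, sg_append, pow_add]
    simp [sg, e1]
  · rw [if_neg h]; simp

lemma r02 (p q : ℕ) : M1 (false, 2) (ip (p + 1) (q + 1)) =
    ((-1) ^ p * if Odd q then (0 : ℚ) else 1) • ip (p + 1) q := by
  funext w
  have h1 := inn_b w (ip (p + 1) (q + 1))
  have h2 : dv e1 (T1 (true, 0)) w (ip (p + 1) (q + 1)) =
      (((-1) ^ (p + 1) * if Odd q then (1 : ℚ) else 0) • ip (p + 1) q) w :=
    congrFun (r10 (p + 1) q).1 w
  have h3 : ip (p + 1) (q + 1) (true :: w) = 0 := by rw [ip_succ]; simp
  rw [h2, h3, ip_append_true, ip_sg] at h1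
  show dv e1 (T1 (false, 2)) w _ = _
  have h4 : ((-1 : ℚ)) ^ (p + 1 + q) = (-1) ^ (p + 1) * if Odd q then (-1 : ℚ) else 1 := by
    rw [pow_add]
    by_cases hq : Odd q
    · rw [hq.neg_one_pow, if_pos hq]
    · rw [(Nat.not_odd_iff_even.1 hq).neg_one_pow, if_neg hq]
  rw [h4] at h1
  by_cases hq : Odd q
  · simp only [hq, if_true, Pi.smul_apply, smul_eq_mul, mul_one, mul_zero, zero_mul] at h1 ⊢
    linear_combination h1
  · simp only [hq, if_false, Pi.smul_apply, smul_eq_mul, mul_one, mul_zero, zero_mul] at h1 ⊢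
    rw [pow_succ] at h1
    linear_combination h1

/-- letters for `α` -/
def La (P : ℕ) : Lt := if Odd P then (false, 1) else (false, 0)

/-- letters for `β` -/
def Kb (Q : ℕ) : Lt := if Odd Q then (false, 2) else (true, 0)

lemma rLa (p q : ℕ) : M1 (La (p + 1)) (ip (p + 1) (q + 1)) = ip p (q + 1) := by
  unfold La
  by_cases hp : Odd p
  · rw [if_neg (by rw [Nat.odd_add_one]; exact not_not.2 hp), (r00 p (q + 1)).1, if_pos hp,
      one_smul]
  · rw [if_pos (by rw [Nat.odd_add_one]; exact hp), r01, if_neg hp, one_smul]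

lemma rKb (p q : ℕ) : M1 (Kb (q + 1)) (ip (p + 1) (q + 1)) =
    ((-1) ^ p * if Odd q then (-1 : ℚ) else 1) • ip (p + 1) q := by
  unfold Kb
  by_cases hq : Odd q
  · rw [if_neg (by rw [Nat.odd_add_one]; exact not_not.2 hq), (r10 (p + 1) q).1, if_pos hq, if_pos hq,
      pow_succ]
    congr 1
    ring
  · rw [if_pos (by rw [Nat.odd_add_one]; exact hq), r02, if_neg hq, if_neg hq]

/-- the outer letters -/
def oL : ℕ → ℕ → List Lt
  | 0, 0 => []
  | p + 1, 0 => La (p + 2) :: oL p 0
  | p, q + 1 => Kb (q + 2) :: oL p q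

lemma oL_p (p : ℕ) : oL (p + 1) 0 = La (p + 2) :: oL p 0 := by
  rw [oL]

lemma oL_q (p q : ℕ) : oL p (q + 1) = Kb (q + 2) :: oL p q := by
  rw [oL]

lemma oL_length (p q : ℕ) : (oL p q).length = p + q := by
  induction q with
  | zero =>
    induction p with
    | zero => rw [oL]; rfl
    | succ p ih => rw [oL_p, List.length_cons, ih]
  | succ q ih => rw [oL_q, List.length_cons, ih]; omega

/-- the form of the inner pair -/
def b1 : Fn Bool →ₗ[ℚ] ℚ where
  toFun f := f [false, true] + f [true, false]
  map_add' f g := by simp only [Pi.add_apply]; ring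
  map_smul' c f := by simp only [Pi.smul_apply, smul_eq_mul, RingHom.id_apply]; ring

lemma b1_apply (f : Fn Bool) : b1 f = f [false, true] + f [true, false] := rfl

lemma b1_par : Par e1 2 b1 := by
  intro g
  simp [b1_apply, sg_cons, e1]

lemma cv1 (c : Bool) (f : Fn Bool) : cv e1 (T1 (false, 2)) (T1 (false, 1)) c f =
    b1 (fun u => f (u ++ [c])) - b1 (fun u => f (c :: u)) := by
  cases c <;> simp [cv, T1, dv_cons, dv_nil, e1, b1_apply] <;> ring

lemma val1 (p q : ℕ) : ∃ s : ℚ, (s = 1 ∨ s = -1) ∧
    b1 (PR M1 (oL p q) (ip (p + 1) (q + 1))) = s := by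
  induction q with
  | zero =>
    refine ⟨1, Or.inl rfl, ?_⟩
    induction p with
    | zero =>
      rw [oL, PR_nil]
      show b1 (ip 1 1) = 1
      rw [b1_apply, ip, iw_eq, iw_eq]
      simp
    | succ p ih =>
      rw [oL_p, PR_cons, Module.End.mul_apply, rLa]
      exact ih
  | succ q ih =>
    obtain ⟨s, hs, h⟩ := ih
    rw [oL_q, PR_cons, Module.End.mul_apply, rKb, map_smul, map_smul, h, smul_eq_mul]
    refine ⟨_, ?_, rfl⟩
    rcases Nat.even_or_odd p with hp | hp <;> rcases hs with rfl | rfl <;>
      by_cases hq : Odd (q + 1) <;> simp [hp.neg_one_pow, hq]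

/-- **the values in the first model** -/
theorem value1 (p q : ℕ) : ∃ s : ℚ, (s = 1 ∨ s = -1) ∧
    Bo M1 (oL p q ++ [(false, 1), (false, 2)]) (ip (p + 2) (q + 1)) [false] = s := by
  obtain ⟨s, hs, h⟩ := val1 p q
  have h1 := (bo_ad e1_sq T1_odd b1_par (x := (false, 1)) (y := (false, 2)) cv1 (oL p q)).2
    (ip (p + 2) (q + 1)) [false]
  have h2 : (fun u => ip (p + 2) (q + 1) (u ++ [false])) = fun _ => 0 := by
    funext u; rw [ip_append_false]
  have h3 : (fun u => ip (p + 2) (q + 1) ([false] ++ u)) = ip (p + 1) (q + 1) := by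
    funext u; rw [ip_succ]; rfl
  have h4 : ∀ b : Fn Bool →ₗ[ℚ] ℚ, b (fun _ => 0) = 0 := fun b => map_zero b
  rw [Ad, h2, h3, h4, LinearMap.comp_apply, h, zero_sub] at h1
  refine ⟨_, ?_, h1⟩
  rcases Nat.even_or_odd (oL p q).length with hp | hp <;> rcases hs with rfl | rfl <;>
    simp [sg_cons, e1, pow_add, hp.neg_one_pow]

end one

/-! ### the second model -/

section two

/-- the derivations of the second model -/
abbrev M2 : Lt → Module.End ℚ (Fn (Fin 5)) := fun a => R e2 (T2 a)

/-- left quotient -/
def tl {Γ : Type u} (d : Γ) (g : Fn Γ) : Fn Γ := fun w => g (d :: w)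

lemma tl_pre {Γ : Type u} [DecidableEq Γ] (d c : Γ) (g : Fn Γ) :
    tl d (pre c g) = if d = c then g else 0 := by
  funext w
  show pre c g (d :: w) = _
  rw [pre_cons]
  split_ifs <;> rfl

lemma tl_iw {Γ : Type u} [DecidableEq Γ] (d : Γ) : tl d (iw ([] : List Γ)) = 0 := by
  funext w
  show iw [] (d :: w) = _
  rw [iw_nil]; simp

lemma tl_zero {Γ : Type u} (d : Γ) : tl d (0 : Fn Γ) = 0 := rfl

/-- prefixing zeros -/
def Zp : ℕ → Fn (Fin 5) → Fn (Fin 5)
  | 0, g => g
  | m + 1, g => pre 0 (Zp m g)

lemma Zp_zero (g : Fn (Fin 5)) : Zp 0 g = g := rfl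

lemma Zp_succ (m : ℕ) (g : Fn (Fin 5)) : Zp (m + 1) g = pre 0 (Zp m g) := rfl

lemma Zp_neg (m : ℕ) (g : Fn (Fin 5)) (c : ℚ) : Zp m (c • g) = c • Zp m g := by
  induction m with
  | zero => rfl
  | succ m ih =>
    rw [Zp_succ, ih, Zp_succ]
    funext w
    cases w with
    | nil => simp
    | cons d w => simp

lemma tl_Zp {d : Fin 5} (hd : d ≠ 0) {g : Fn (Fin 5)} (hg : tl d g = 0) (m : ℕ) :
    tl d (Zp m g) = 0 := by
  cases m with
  | zero => exact hg
  | succ m => rw [Zp_succ, tl_pre, if_neg hd]

lemma M2_iw (a : Lt) : M2 a (iw []) = 0 := by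
  funext w
  cases w with
  | nil => rfl
  | cons c w =>
    show R e2 (T2 a) _ _ = _
    have h1 : (fun v => iw ([] : List (Fin 5)) (c :: v)) = fun _ => 0 := by
      funext v; rw [iw_nil]; simp
    rw [R_cons, h1, show R e2 (T2 a) (fun _ => 0) w = 0 from dv_zero _ _ _, mul_zero, add_zero]
    obtain ⟨s, i⟩ := a
    fin_cases i <;> cases s <;> fin_cases c <;> simp [T2, iw_nil]

lemma R_pre_cons {Γ : Type u} [DecidableEq Γ] (ε : Γ → ℚ) (A : Tb Γ) (c d : Γ) (g : Fn Γ)
    (w : List Γ) : R ε A (pre c g) (d :: w) =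
      fs (A d) (fun s => pre c g (s ++ w)) + ε d * (if d = c then R ε A g w else 0) := by
  rw [R_cons]
  congr 2
  have h1 : (fun v => pre c g (d :: v)) = if d = c then g else fun _ => 0 := by
    funext v; rw [pre_cons]; split_ifs <;> rfl
  rw [h1]
  split_ifs
  · rfl
  · exact dv_zero _ _ _

lemma E1_pre (c : Fin 5) (g : Fn (Fin 5)) : M2 (false, 0) (pre c g) =
    e2 c • pre c (M2 (false, 0) g) + (if c = 3 then pre 2 g else 0) +
      (if c = 0 then pre 4 (tl 1 g) else 0) - (if c = 1 then pre 4 (tl 0 g) else 0) := by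
  funext w
  cases w with
  | nil => fin_cases c <;> simp [R_nil]
  | cons d w =>
    show R e2 (T2 (false, 0)) (pre c g) (d :: w) = (e2 c • pre c (R e2 (T2 (false, 0)) g) +
      (if c = 3 then pre 2 g else 0) + (if c = 0 then pre 4 (tl 1 g) else 0) -
      (if c = 1 then pre 4 (tl 0 g) else 0)) (d :: w)
    rw [R_pre_cons]
    generalize R e2 (T2 (false, 0)) g = G
    fin_cases c <;> fin_cases d <;> simp [T2, e2, tl]

lemma F2_pre (c : Fin 5) (g : Fn (Fin 5)) : M2 (false, 1) (pre c g) =
    e2 c • pre c (M2 (false, 1) g) + (if c = 4 then pre 1 g else 0) +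
      (if c = 0 then pre 3 (tl 2 g) else 0) - (if c = 2 then pre 3 (tl 0 g) else 0) := by
  funext w
  cases w with
  | nil => fin_cases c <;> simp [R_nil]
  | cons d w =>
    show R e2 (T2 (false, 1)) (pre c g) (d :: w) = (e2 c • pre c (R e2 (T2 (false, 1)) g) +
      (if c = 4 then pre 1 g else 0) + (if c = 0 then pre 3 (tl 2 g) else 0) -
      (if c = 2 then pre 3 (tl 0 g) else 0)) (d :: w)
    rw [R_pre_cons]
    generalize R e2 (T2 (false, 1)) g = G
    fin_cases c <;> fin_cases d <;> simp [T2, e2, tl]

lemma E3_pre (c : Fin 5) (g : Fn (Fin 5)) : M2 (false, 2) (pre c g) =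
    e2 c • pre c (M2 (false, 2) g) - (if c = 3 then pre 0 g else 0) -
      (if c = 1 then pre 4 (tl 2 g) else 0) + (if c = 2 then pre 4 (tl 1 g) else 0) := by
  funext w
  cases w with
  | nil => fin_cases c <;> simp [R_nil]
  | cons d w =>
    show R e2 (T2 (false, 2)) (pre c g) (d :: w) = (e2 c • pre c (R e2 (T2 (false, 2)) g) -
      (if c = 3 then pre 0 g else 0) - (if c = 1 then pre 4 (tl 2 g) else 0) +
      (if c = 2 then pre 4 (tl 1 g) else 0)) (d :: w)
    rw [R_pre_cons]
    generalize R e2 (T2 (false, 2)) g = G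
    fin_cases c <;> fin_cases d <;> simp [T2, e2, tl]

/-- the indicator of `P` -/
def gP : Fn (Fin 5) := pre 3 (iw [])

/-- the indicator of `PP` -/
def gPP : Fn (Fin 5) := pre 3 (pre 3 (iw []))

/-- the indicator of `w` -/
def gw : Fn (Fin 5) := pre 2 (iw [])

lemma pre_smul {Γ : Type u} [DecidableEq Γ] (c : Γ) (k : ℚ) (g : Fn Γ) :
    pre c (k • g) = k • pre c g := by
  funext w
  cases w with
  | nil => simp
  | cons d w => simp

lemma pre_add {Γ : Type u} [DecidableEq Γ] (c : Γ) (f g : Fn Γ) :
    pre c (f + g) = pre c f + pre c g := by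
  funext w
  cases w with
  | nil => simp
  | cons d w => simp only [pre_cons, Pi.add_apply]; split_ifs <;> simp

lemma stE (m : ℕ) : M2 (false, 0) (Zp m gP) = Zp m gw := by
  induction m with
  | zero =>
    rw [Zp_zero, Zp_zero, gP, E1_pre, M2_iw, pre_zero]
    simp [gw]
  | succ m ih =>
    rw [Zp_succ, E1_pre, ih, tl_Zp (by decide) (by rw [gP, tl_pre]; rfl), pre_zero, Zp_succ]
    simp [e2]

lemma tl2_gw (m : ℕ) : tl (2 : Fin 5) (Zp (m + 1) gw) = 0 := by
  rw [Zp_succ, tl_pre, if_neg (by decide)]

lemma stF (m : ℕ) : M2 (false, 1) (Zp (m + 1) gw) = Zp m gP := by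
  induction m with
  | zero =>
    rw [Zp_succ, Zp_zero, Zp_zero, gw, F2_pre, F2_pre, M2_iw, tl_pre]
    simp [gP, pre_zero, tl_iw]
  | succ m ih =>
    rw [Zp_succ, F2_pre, ih, tl2_gw]
    simp [e2, pre_zero, Zp_succ]

/-- the image of `uᵐPP` -/
def gE (m : ℕ) : Fn (Fin 5) := Zp m (pre 2 gP) + (-1 : ℚ) • Zp m (pre 3 gw)

lemma stEE (m : ℕ) : M2 (false, 0) (Zp m gPP) = gE m := by
  induction m with
  | zero =>
    rw [Zp_zero, gPP, E1_pre, E1_pre, M2_iw, gE, Zp_zero, Zp_zero, gP, gw]
    simp [pre_zero, e2, pre_smul]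
    abel
  | succ m ih =>
    rw [Zp_succ, E1_pre, ih, tl_Zp (by decide) (by rw [gPP, tl_pre]; rfl), pre_zero, gE, gE, pre_add,
      pre_smul, Zp_succ, Zp_succ]
    simp [e2]

lemma stF0 (m : ℕ) : M2 (false, 1) (Zp m (pre 3 gw)) = 0 := by
  induction m with
  | zero =>
    rw [Zp_zero, F2_pre, gw, F2_pre, M2_iw]
    simp [pre_zero, tl_iw]
  | succ m ih =>
    rw [Zp_succ, F2_pre, ih, tl_Zp (by decide) (by rw [tl_pre]; rfl)]
    simp [pre_zero]

lemma stF1 (m : ℕ) : M2 (false, 1) (Zp (m + 1) (pre 2 gP)) = Zp m gPP := by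
  induction m with
  | zero =>
    rw [Zp_succ, Zp_zero, Zp_zero, F2_pre, F2_pre, tl_pre, gP, F2_pre, M2_iw]
    simp [pre_zero, gPP, tl_pre]
  | succ m ih =>
    rw [Zp_succ, F2_pre, ih, Zp_succ, tl_pre]
    simp [e2, pre_zero, Zp_succ]

lemma stFF (m : ℕ) : M2 (false, 1) (gE (m + 1)) = Zp m gPP := by
  rw [gE, map_add, map_smul, stF1, stF0, smul_zero, add_zero]

/-- the form of the inner pair -/
def b2 : Fn (Fin 5) →ₗ[ℚ] ℚ where
  toFun f := f [2]
  map_add' f g := rfl
  map_smul' c f := rfl

lemma b2_apply (f : Fn (Fin 5)) : b2 f = f [2] := rfl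

lemma b2_par : Par e2 2 b2 := by
  intro g
  simp [b2_apply, e2]

lemma cv2 (c : Fin 5) (f : Fn (Fin 5)) : cv e2 (T2 (false, 2)) (T2 (false, 1)) c f =
    b2 (fun u => f (u ++ [c])) - b2 (fun u => f (c :: u)) := by
  fin_cases c <;> simp [cv, T2, dv_cons, dv_nil, e2, b2_apply] <;> ring

/-- the pairs -/
def oE : ℕ → List Lt
  | 0 => []
  | m + 1 => (false, 0) :: (false, 1) :: oE m

lemma oE_length (m : ℕ) : (oE m).length = 2 * m := by
  induction m with
  | zero => rfl
  | succ m ih =>
    show (oE m).length + 1 + 1 = _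
    rw [ih]; ring

lemma PR_oE (m : ℕ) : PR M2 (oE m) (Zp m gP) = gP := by
  induction m with
  | zero => rfl
  | succ m ih =>
    show PR M2 ((false, 0) :: (false, 1) :: oE m) _ = _
    rw [PR_cons, PR_cons, Module.End.mul_apply, Module.End.mul_apply, stE, stF, ih]

lemma PR_oE' (m : ℕ) : PR M2 (oE m) (Zp m gPP) = gPP := by
  induction m with
  | zero => rfl
  | succ m ih =>
    show PR M2 ((false, 0) :: (false, 1) :: oE m) _ = _
    rw [PR_cons, PR_cons, Module.End.mul_apply, Module.End.mul_apply, stEE, stFF, ih]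

/-- not ending with `Q` -/
def NL (g : Fn (Fin 5)) : Prop := ∀ u, g (u ++ [4]) = 0

lemma NL_pre {c : Fin 5} {g : Fn (Fin 5)} (hg : NL g) (hc : c ≠ 4 ∨ g [] = 0) : NL (pre c g) := by
  intro u
  cases u with
  | nil =>
    show pre c g [4] = 0
    rw [pre_cons]
    rcases hc with hc | hc
    · rw [if_neg hc.symm]
    · rw [hc, ite_self]
  | cons d u =>
    show pre c g (d :: (u ++ [4])) = 0
    rw [pre_cons, hg, ite_self]

lemma NL_iw : NL (iw []) := by
  intro u
  rw [iw_nil, if_neg (by simp)]

lemma NL_Zp {g : Fn (Fin 5)} (hg : NL g) (m : ℕ) : NL (Zp m g) := by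
  induction m with
  | zero => exact hg
  | succ m ih => exact NL_pre ih (Or.inl (by decide))

lemma value2 (o : List Lt) {g : Fn (Fin 5)} (hg : NL g) (hg0 : g [] = 0) :
    Bo M2 (o ++ [(false, 1), (false, 2)]) (pre 4 g) [4] =
      - (-1) ^ (o.length + 2) * b2 (PR M2 o g) := by
  have h1 := (bo_ad e2_sq T2_odd b2_par (x := (false, 1)) (y := (false, 2)) cv2 o).2
    (pre 4 g) [4]
  have h2 : (fun u => pre 4 g (u ++ [4])) = fun _ => 0 := by
    funext u; exact NL_pre hg (Or.inr hg0) u
  have h3 : (fun u => pre 4 g ([4] ++ u)) = g := by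
    funext u
    show pre 4 g (4 :: u) = _
    rw [pre_cons, if_pos rfl]
  have h4 : ∀ b : Fn (Fin 5) →ₗ[ℚ] ℚ, b (fun _ => 0) = 0 := fun b => map_zero b
  rw [h1, Ad, h2, h3, h4, LinearMap.comp_apply, zero_sub]
  simp [e2]

/-- **the values in the second model**, odd length -/
theorem value2_odd (m : ℕ) :
    Bo M2 ((oE m ++ [(false, 0)]) ++ [(false, 1), (false, 2)]) (pre 4 (Zp m gP)) [4] = 1 := by
  rw [value2 (oE m ++ [(false, 0)]) (g := Zp m gP) (NL_Zp (NL_pre NL_iw (Or.inl (by decide))) m)
    (by cases m <;> rfl), PR_append, Module.End.mul_apply, PR_oE, PR_cons, PR_nil, one_mul,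
    show gP = Zp 0 gP from rfl, stE, List.length_append, oE_length]
  simp [b2_apply, Zp_zero, gw, iw_nil, pow_succ, pow_mul]

/-- **the values in the second model**, even length -/
theorem value2_even (m : ℕ) :
    Bo M2 ((oE m ++ [(false, 2), (false, 0), (false, 1), (false, 0)]) ++ [(false, 1), (false, 2)])
      (pre 4 (Zp m gPP)) [4] = 2 := by
  have h0 : M2 (false, 2) gPP = (-1 : ℚ) • pre 0 gP + pre 3 (pre 0 (iw [])) := by
    rw [gPP, E3_pre, E3_pre, M2_iw, gP]
    simp [e2, pre_zero, pre_sub]
    have : pre (3 : Fin 5) (-pre 0 (iw [])) = - pre 3 (pre 0 (iw [])) := by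
      have := pre_smul (3 : Fin 5) (-1) (pre 0 (iw []))
      simpa using this
    rw [this]
    abel
  have h1 : M2 (false, 0) (pre 0 gP) = pre 0 gw := by
    rw [gP, E1_pre, E1_pre, M2_iw, gw]
    simp [e2, pre_zero, tl_pre]
  have h2 : M2 (false, 0) (pre 3 (pre 0 (iw []))) = pre 2 (pre 0 (iw [])) := by
    rw [E1_pre, E1_pre, M2_iw]
    simp [e2, pre_zero, tl_iw]
  have h3 : M2 (false, 1) (pre 0 gw) = gP := stF 0
  have h4 : M2 (false, 1) (pre 2 (pre 0 (iw []))) = (-1 : ℚ) • gP := by
    rw [F2_pre, F2_pre, M2_iw, gP]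
    simp [e2, pre_zero, tl_iw, tl_pre]
  have h5 : M2 (false, 0) gP = gw := stE 0
  rw [value2 (oE m ++ [(false, 2), (false, 0), (false, 1), (false, 0)]) (g := Zp m gPP)
    (NL_Zp (NL_pre (NL_pre NL_iw (Or.inl (by decide))) (Or.inl (by decide))) m)
    (by cases m <;> rfl), PR_append, Module.End.mul_apply, PR_oE', PR_cons, PR_cons, PR_cons,
    PR_cons, PR_nil, one_mul, Module.End.mul_apply, Module.End.mul_apply, Module.End.mul_apply,
    h0, map_add, map_add, map_add, map_smul, map_smul, map_smul, h1, h2, h3, h4, map_smul, h5,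
    List.length_append, oE_length]
  simp [b2_apply, gw, iw_nil, pow_add, pow_mul]
  norm_num

end two


end

end Vale.Agent.P240.R2.H584
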