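import Vale.Agent.P240.R2.H584.Der

/-!
The two models of the algebra with six odd generators.
-/

set_option autoImplicit false
set_option linter.all false

namespace Vale.Agent.P240.R2.H584

universe u v

/-- the letters: type (`false`: real, `true`: `α` times real) and colour -/
abbrev Lt : Type := Bool × Fin 3

section
variable {V : Type v} [AddCommGroup V] [Module ℚ V]

/-- anticommutator -/
def AC (x y : Module.End ℚ V) : Module.End ℚ V := x * y + y * x

lemma AC_comm (x y : Module.End ℚ V) : AC x y = AC y x := by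
  unfold AC; exact add_comm _ _

/-- the relations of the six odd generators -/
structure Rep (M : Lt → Module.End ℚ V) : Prop where
  sq : ∀ a, AC (M a) (M a) = 0
  same : ∀ i, AC (M (false, i)) (M (true, i)) = 0
  z02 : ∀ s, AC (M (s, 0)) (M (s, 2)) = 0
  z01 : ∀ s, AC (M (s, 0)) (M (!s, 1)) = 0
  z12 : ∀ s, AC (M (s, 1)) (M (!s, 2)) = 0
  s01 : AC (M (false, 0)) (M (false, 1)) + AC (M (true, 0)) (M (true, 1)) = 0
  s12 : AC (M (false, 1)) (M (false, 2)) + AC (M (true, 1)) (M (true, 2)) = 0
  s02 : AC (M (false, 0)) (M (true, 2)) + AC (M (true, 0)) (M (false, 2)) = 0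

lemma Rep.flip {M : Lt → Module.End ℚ V} (h : Rep M) : Rep (fun a => M (!a.1, a.2)) where
  sq a := h.sq _
  same i := by
    show AC (M (!false, i)) (M (!true, i)) = 0
    rw [AC_comm]
    exact h.same i
  z02 s := h.z02 _
  z01 s := h.z01 _
  z12 s := h.z12 _
  s01 := by
    rw [add_comm]
    exact h.s01
  s12 := by
    rw [add_comm]
    exact h.s12
  s02 := by
    rw [add_comm]
    exact h.s02

end

/-! ### The first model -/

/-- all letters odd -/
def e1 : Bool → ℚ := fun _ => -1

/-- derivations of the free algebra in two odd letters -/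
def T1 : Lt → Tb Bool
  | (false, 0) => fun c => if c then [] else [(1, [false, false])]
  | (true, 1) => fun c => if c then [(-1, [false, false])] else []
  | (false, 2) => fun c => if c then [(1, [true, true])] else
      [(1, [false, true]), (1, [true, false])]
  | (true, 0) => fun c => if c then [(1, [true, true])] else []
  | (false, 1) => fun c => if c then [(1, [false, true]), (1, [true, false])] else
      [(1, [false, false])]
  | (true, 2) => fun c => if c then [] else [(-1, [true, true])]

lemma T1_odd (a : Lt) : OddT e1 (T1 a) := by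
  obtain ⟨s, i⟩ := a
  intro c x hx
  fin_cases i <;> cases s <;> cases c <;> simp [T1] at hx <;>
    first
    | (rcases hx with rfl | rfl <;> simp [e1])
    | (subst hx; simp [e1])

lemma e1_sq (c : Bool) : e1 c * e1 c = 1 := by simp [e1]

/-- **the first model** -/
theorem rep1 : Rep (fun a => R e1 (T1 a)) where
  sq a := by
    refine anti_zero e1_sq (T1_odd _) (T1_odd _) fun c f => ?_
    obtain ⟨s, i⟩ := a
    fin_cases i <;> cases s <;> cases c <;> simp [cv, T1, dv_cons, dv_nil, e1] <;> ring
  same i := by
    refine anti_zero e1_sq (T1_odd _) (T1_odd _) fun c f => ?_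
    fin_cases i <;> cases c <;> simp [cv, T1, dv_cons, dv_nil, e1] <;> ring
  z02 s := by
    refine anti_zero e1_sq (T1_odd _) (T1_odd _) fun c f => ?_
    cases s <;> cases c <;> simp [cv, T1, dv_cons, dv_nil, e1] <;> ring
  z01 s := by
    refine anti_zero e1_sq (T1_odd _) (T1_odd _) fun c f => ?_
    cases s <;> cases c <;> simp [cv, T1, dv_cons, dv_nil, e1] <;> ring
  z12 s := by
    refine anti_zero e1_sq (T1_odd _) (T1_odd _) fun c f => ?_
    cases s <;> cases c <;> simp [cv, T1, dv_cons, dv_nil, e1] <;> ring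
  s01 := by
    refine anti_sum e1_sq (T1_odd _) (T1_odd _) (T1_odd _) (T1_odd _) fun c f => ?_
    cases c <;> simp [cv, T1, dv_cons, dv_nil, e1] <;> ring
  s12 := by
    refine anti_sum e1_sq (T1_odd _) (T1_odd _) (T1_odd _) (T1_odd _) fun c f => ?_
    cases c <;> simp [cv, T1, dv_cons, dv_nil, e1] <;> ring
  s02 := by
    refine anti_sum e1_sq (T1_odd _) (T1_odd _) (T1_odd _) (T1_odd _) fun c f => ?_
    cases c <;> simp [cv, T1, dv_cons, dv_nil, e1] <;> ring

/-! ### The second model -/

/-- the letters `u, v, w` are even, `P, Q` are odd -/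
def e2 : Fin 5 → ℚ := fun c => if c.val < 3 then 1 else -1

/-- derivations of the free algebra in `u, v, w, P, Q` -/
def T2 : Lt → Tb (Fin 5)
  | (false, 0) => fun c => if c = 2 then [(1, [3])] else if c = 4 then
      [(1, [0, 1]), (-1, [1, 0])] else []
  | (true, 1) => fun c => if c = 1 then [(1, [3])] else if c = 4 then
      [(-1, [0, 2]), (1, [2, 0])] else []
  | (false, 2) => fun c => if c = 0 then [(-1, [3])] else if c = 4 then
      [(-1, [1, 2]), (1, [2, 1])] else []
  | (true, 0) => fun c => if c = 2 then [(1, [4])] else if c = 3 then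
      [(-1, [0, 1]), (1, [1, 0])] else []
  | (false, 1) => fun c => if c = 1 then [(1, [4])] else if c = 3 then
      [(1, [0, 2]), (-1, [2, 0])] else []
  | (true, 2) => fun c => if c = 0 then [(-1, [4])] else if c = 3 then
      [(1, [1, 2]), (-1, [2, 1])] else []

lemma e2_sq (c : Fin 5) : e2 c * e2 c = 1 := by
  unfold e2; split_ifs <;> norm_num

lemma T2_odd (a : Lt) : OddT e2 (T2 a) := by
  obtain ⟨s, i⟩ := a
  intro c x hx
  fin_cases i <;> cases s <;> fin_cases c <;> simp [T2] at hx <;>
    first
    | (rcases hx with rfl | rfl <;> simp [e2])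
    | (subst hx; simp [e2])

/-- **the second model** -/
theorem rep2 : Rep (fun a => R e2 (T2 a)) where
  sq a := by
    refine anti_zero e2_sq (T2_odd _) (T2_odd _) fun c f => ?_
    obtain ⟨s, i⟩ := a
    fin_cases i <;> cases s <;> fin_cases c <;> simp [cv, T2, dv_cons, dv_nil, e2] <;> ring
  same i := by
    refine anti_zero e2_sq (T2_odd _) (T2_odd _) fun c f => ?_
    fin_cases i <;> fin_cases c <;> simp [cv, T2, dv_cons, dv_nil, e2] <;> ring
  z02 s := by
    refine anti_zero e2_sq (T2_odd _) (T2_odd _) fun c f => ?_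
    cases s <;> fin_cases c <;> simp [cv, T2, dv_cons, dv_nil, e2] <;> ring
  z01 s := by
    refine anti_zero e2_sq (T2_odd _) (T2_odd _) fun c f => ?_
    cases s <;> fin_cases c <;> simp [cv, T2, dv_cons, dv_nil, e2] <;> ring
  z12 s := by
    refine anti_zero e2_sq (T2_odd _) (T2_odd _) fun c f => ?_
    cases s <;> fin_cases c <;> simp [cv, T2, dv_cons, dv_nil, e2] <;> ring
  s01 := by
    refine anti_sum e2_sq (T2_odd _) (T2_odd _) (T2_odd _) (T2_odd _) fun c f => ?_
    fin_cases c <;> simp [cv, T2, dv_cons, dv_nil, e2] <;> ring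
  s12 := by
    refine anti_sum e2_sq (T2_odd _) (T2_odd _) (T2_odd _) (T2_odd _) fun c f => ?_
    fin_cases c <;> simp [cv, T2, dv_cons, dv_nil, e2] <;> ring
  s02 := by
    refine anti_sum e2_sq (T2_odd _) (T2_odd _) (T2_odd _) (T2_odd _) fun c f => ?_
    fin_cases c <;> simp [cv, T2, dv_cons, dv_nil, e2] <;> ring

end Vale.Agent.P240.R2.H584
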