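import Vale.Agent.P240.R2.H584.Ev

/-!
Vanishing of the sums over all types: products of four anticommuting operators of square zero out of
three vanish.
-/

set_option autoImplicit false
set_option linter.all false

namespace Vale.Agent.P240.R2.H584

open scoped Classical

universe u v w

noncomputable section

section
variable {V : Type v} [AddCommGroup V] [Module ℚ V]

/-- pairwise anticommuting operators of square zero -/
def ACZ {J : Type u} (x : J → Module.End ℚ V) : Prop := ∀ i j, x i * x j + x j * x i = 0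

lemma ACZ.sq {J : Type u} {x : J → Module.End ℚ V} (h : ACZ x) (i : J) : x i * x i = 0 := by
  have h1 := h i i
  rw [← two_smul ℚ] at h1
  exact (smul_eq_zero.1 h1).resolve_left two_ne_zero

lemma ACZ.perm {J : Type u} {x : J → Module.End ℚ V} (h : ACZ x) {l l' : List J}
    (hl : l.Perm l') : PR x l = 0 ↔ PR x l' = 0 := by
  have key : ∃ s : ℚ, s ≠ 0 ∧ PR x l = s • PR x l' := by
    induction hl with
    | nil => exact ⟨1, one_ne_zero, by rw [one_smul]⟩
    | cons a _ ih =>
      obtain ⟨s, hs, e⟩ := ih
      exact ⟨s, hs, by rw [PR_cons, PR_cons, e, smul_mul_assoc]⟩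
    | swap a b l =>
      refine ⟨-1, by norm_num, ?_⟩
      rw [PR_cons, PR_cons, PR_cons, PR_cons, mul_assoc, mul_assoc,
        eq_neg_of_add_eq_zero_left (h a b), mul_neg, neg_one_smul]
    | trans _ _ ih1 ih2 =>
      obtain ⟨s, hs, e⟩ := ih1
      obtain ⟨t, ht, f⟩ := ih2
      exact ⟨s * t, mul_ne_zero hs ht, by rw [e, f, smul_smul]⟩
  obtain ⟨s, hs, e⟩ := key
  rw [e, smul_eq_zero]
  exact ⟨fun h => h.resolve_left hs, Or.inr⟩

lemma ACZ.dup {J : Type u} {x : J → Module.End ℚ V} (h : ACZ x) {l : List J}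
    (hl : ¬ l.Nodup) : PR x l = 0 := by
  induction l with
  | nil => exact absurd List.nodup_nil hl
  | cons a l ih =>
    by_cases ha : a ∈ l
    · obtain ⟨l', hl'⟩ : ∃ l', l.Perm (a :: l') := ⟨l.erase a, List.perm_cons_erase ha⟩
      rw [h.perm (hl'.cons a), PR_cons, PR_cons, mul_assoc, h.sq, mul_zero]
    · rw [PR_cons, ih fun h' => hl (List.nodup_cons.2 ⟨ha, h'⟩), zero_mul]

/-- products of more operators than letters vanish -/
lemma ACZ.long {J : Type u} [Fintype J] {x : J → Module.End ℚ V} (h : ACZ x) {l : List J}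
    (hl : Fintype.card J < l.length) : PR x l = 0 := by
  refine h.dup fun h' => ?_
  have := h'.length_le_card
  omega

/-- the sums over the types -/
def Xp (M : Lt → Module.End ℚ V) (j : Fin 3) : Module.End ℚ V := M (false, j) + M (true, j)

/-- the signed sums over the types -/
def Xm (M : Lt → Module.End ℚ V) (j : Fin 3) : Module.End ℚ V := M (false, j) - M (true, j)

lemma AC_add_add (a b c d : Module.End ℚ V) : (a + b) * (c + d) + (c + d) * (a + b) =
    AC a c + AC b d + (AC a d + AC b c) := by
  unfold AC; noncomm_ring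

lemma AC_sub_sub (a b c d : Module.End ℚ V) : (a - b) * (c - d) + (c - d) * (a - b) =
    AC a c + AC b d - (AC a d + AC b c) := by
  unfold AC; noncomm_ring

lemma Rep.pairs {M : Lt → Module.End ℚ V} (h : Rep M) (i j : Fin 3) :
    AC (M (false, i)) (M (false, j)) + AC (M (true, i)) (M (true, j)) = 0 ∧
      AC (M (false, i)) (M (true, j)) + AC (M (true, i)) (M (false, j)) = 0 := by
  have z01t : AC (M (true, 0)) (M (false, 1)) = 0 := h.z01 true
  have z01f : AC (M (false, 0)) (M (true, 1)) = 0 := h.z01 false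
  have z12t : AC (M (true, 1)) (M (false, 2)) = 0 := h.z12 true
  have z12f : AC (M (false, 1)) (M (true, 2)) = 0 := h.z12 false
  have s01 := h.s01
  have s12 := h.s12
  have s02 := h.s02
  have z02f := h.z02 false
  have z02t := h.z02 true
  fin_cases i <;> fin_cases j
  · exact ⟨by rw [h.sq, h.sq, add_zero], by
      rw [AC_comm (M (true, _)), h.same, add_zero]⟩
  · exact ⟨s01, by
      show AC (M (false, 0)) (M (true, 1)) + AC (M (true, 0)) (M (false, 1)) = 0
      rw [z01f, z01t, add_zero]⟩
  · exact ⟨by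
      show AC (M (false, 0)) (M (false, 2)) + AC (M (true, 0)) (M (true, 2)) = 0
      rw [z02f, z02t, add_zero], s02⟩
  · refine ⟨?_, ?_⟩
    · show AC (M (false, 1)) (M (false, 0)) + AC (M (true, 1)) (M (true, 0)) = 0
      rw [AC_comm (M (false, 1)), AC_comm (M (true, 1)), s01]
    · show AC (M (false, 1)) (M (true, 0)) + AC (M (true, 1)) (M (false, 0)) = 0
      rw [AC_comm (M (false, 1)), AC_comm (M (true, 1)), z01t, z01f, add_zero]
  · exact ⟨by rw [h.sq, h.sq, add_zero], by
      rw [AC_comm (M (true, _)), h.same, add_zero]⟩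
  · exact ⟨s12, by
      show AC (M (false, 1)) (M (true, 2)) + AC (M (true, 1)) (M (false, 2)) = 0
      rw [z12f, z12t, add_zero]⟩
  · refine ⟨?_, ?_⟩
    · show AC (M (false, 2)) (M (false, 0)) + AC (M (true, 2)) (M (true, 0)) = 0
      rw [AC_comm (M (false, 2)), AC_comm (M (true, 2)), z02f, z02t, add_zero]
    · show AC (M (false, 2)) (M (true, 0)) + AC (M (true, 2)) (M (false, 0)) = 0
      rw [AC_comm (M (false, 2)), AC_comm (M (true, 2)), add_comm]
      exact s02
  · refine ⟨?_, ?_⟩
    · show AC (M (false, 2)) (M (false, 1)) + AC (M (true, 2)) (M (true, 1)) = 0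
      rw [AC_comm (M (false, 2)), AC_comm (M (true, 2)), s12]
    · show AC (M (false, 2)) (M (true, 1)) + AC (M (true, 2)) (M (false, 1)) = 0
      rw [AC_comm (M (false, 2)), AC_comm (M (true, 2)), z12t, z12f, add_zero]
  · exact ⟨by rw [h.sq, h.sq, add_zero], by
      rw [AC_comm (M (true, _)), h.same, add_zero]⟩

lemma Rep.xp {M : Lt → Module.End ℚ V} (h : Rep M) : ACZ (Xp M) := by
  intro i j
  rw [Xp, Xp, AC_add_add, (h.pairs i j).1, (h.pairs i j).2, add_zero]

lemma Rep.xm {M : Lt → Module.End ℚ V} (h : Rep M) : ACZ (Xm M) := by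
  intro i j
  rw [Xm, Xm, AC_sub_sub, (h.pairs i j).1, (h.pairs i j).2, sub_zero]

/-! ### lists of types -/

/-- the lists of types of length `n` -/
def BL : ℕ → Finset (List Bool)
  | 0 => {[]}
  | n + 1 => (BL n).image (List.cons false) ∪ (BL n).image (List.cons true)

lemma mem_BL {n : ℕ} {l : List Bool} : l ∈ BL n ↔ l.length = n := by
  induction n generalizing l with
  | zero => simp [BL]
  | succ n ih =>
    rw [BL, Finset.mem_union, Finset.mem_image, Finset.mem_image]
    constructor
    · rintro (⟨t, ht, rfl⟩ | ⟨t, ht, rfl⟩) <;> simp [ih.1 ht]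
    · intro h
      cases l with
      | nil => simp at h
      | cons b l =>
        have h' : l.length = n := by simpa using h
        cases b
        · exact Or.inl ⟨l, ih.2 h', rfl⟩
        · exact Or.inr ⟨l, ih.2 h', rfl⟩

lemma sum_BL {W : Type w} [AddCommMonoid W] (n : ℕ) (f : List Bool → W) :
    ∑ l ∈ BL (n + 1), f l = ∑ l ∈ BL n, f (false :: l) + ∑ l ∈ BL n, f (true :: l) := by
  rw [BL, Finset.sum_union, Finset.sum_image, Finset.sum_image]
  · intro a _ b _ h; exact (List.cons_inj_right true).1 h
  · intro a _ b _ h; exact (List.cons_inj_right false).1 h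
  · rw [Finset.disjoint_left]
    intro l h1 h2
    rw [Finset.mem_image] at h1 h2
    obtain ⟨a, -, rfl⟩ := h1
    obtain ⟨b, -, h⟩ := h2
    simp at h

/-- the sign of a list of types -/
def sB (l : List Bool) : ℚ := (l.map fun b => if b then (-1 : ℚ) else 1).prod

lemma sB_cons (b : Bool) (l : List Bool) : sB (b :: l) = (if b then -1 else 1) * sB l := by
  simp [sB]

lemma sum_types (M : Lt → Module.End ℚ V) (κ : List (Fin 3)) :
    ∑ l ∈ BL κ.length, PR M (l.zip κ) = PR (Xp M) κ := by
  induction κ with
  | nil => simp [BL, PR_nil]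
  | cons j κ ih =>
    rw [List.length_cons, sum_BL]
    simp only [List.zip_cons_cons, PR_cons]
    rw [← Finset.sum_mul, ← Finset.sum_mul, ih, Xp, mul_add]

lemma sum_types' (M : Lt → Module.End ℚ V) (κ : List (Fin 3)) :
    ∑ l ∈ BL κ.length, sB l • PR M (l.zip κ) = PR (Xm M) κ := by
  induction κ with
  | nil => simp [BL, PR_nil, sB]
  | cons j κ ih =>
    rw [List.length_cons, sum_BL]
    simp only [List.zip_cons_cons, PR_cons, sB_cons, Bool.false_eq_true, if_false, if_true, one_mul,
      neg_one_mul, neg_smul, ← smul_mul_assoc]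
    rw [← Finset.sum_mul, ← Finset.sum_mul, ih, Finset.sum_neg_distrib, ih, Xm, mul_sub, neg_mul,
      sub_eq_add_neg]

/-- **the sum over all types vanishes** -/
theorem types_zero {M : Lt → Module.End ℚ V} (hM : Rep M) {κ : List (Fin 3)}
    (h4 : 4 ≤ κ.length) : ∑ l ∈ BL κ.length, PR M (l.zip κ) = 0 := by
  rw [sum_types]
  exact hM.xp.long (by rw [Fintype.card_fin]; omega)

/-- **the sum over all types of given discriminant vanishes** -/
theorem types_zero' {M : Lt → Module.End ℚ V} (hM : Rep M) {κ : List (Fin 3)}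
    (h4 : 4 ≤ κ.length) (δ : ℚ) (hδ : δ = 1 ∨ δ = -1) :
    ∑ l ∈ (BL κ.length).filter (fun l => sB l = δ), PR M (l.zip κ) = 0 := by
  have h1 := types_zero hM h4
  have h2 := sum_types' M κ
  rw [hM.xm.long (by rw [Fintype.card_fin]; omega)] at h2
  have hs : ∀ l : List Bool, sB l = 1 ∨ sB l = -1 := by
    intro l
    induction l with
    | nil => left; rfl
    | cons b l ih =>
      rw [sB_cons]
      rcases ih with ih | ih <;> cases b <;> simp [ih]
  have h3 : (2 : ℚ) • ∑ l ∈ (BL κ.length).filter (fun l => sB l = δ), PR M (l.zip κ) =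
      ∑ l ∈ BL κ.length, PR M (l.zip κ) + δ • ∑ l ∈ BL κ.length, sB l • PR M (l.zip κ) := by
    rw [Finset.smul_sum, Finset.smul_sum, Finset.sum_filter, ← Finset.sum_add_distrib]
    refine Finset.sum_congr rfl fun l _ => ?_
    rw [smul_smul]
    by_cases h : sB l = δ
    · rw [if_pos h, h]
      have : δ * δ = 1 := by rcases hδ with rfl | rfl <;> norm_num
      rw [this, one_smul, two_smul]
    · rw [if_neg h]
      have : δ * sB l = -1 := by
        rcases hδ with rfl | rfl <;> rcases hs l with h' | h'
        · exact absurd h' h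
        · rw [h']; norm_num
        · rw [h']; norm_num
        · exact absurd h' h
      rw [this, neg_one_smul, add_neg_cancel]
  rw [h1, h2, smul_zero, add_zero] at h3
  exact (smul_eq_zero.1 h3).resolve_left two_ne_zero

/-- letters from colours and types -/
def lt {X : Type u} (κ : X → Option (Fin 3)) (τ : X → Bool) (x : X) : Option Lt :=
  (κ x).map fun j => (τ x, j)

lemma PR_congr {X : Type u} {M M' : X → Module.End ℚ V} {w : List X} (h : ∀ x ∈ w, M x = M' x) :
    PR M w = PR M' w := by
  induction w with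
  | nil => rfl
  | cons x w ih =>
    rw [PR_cons, PR_cons, h x (by simp), ih fun y hy => h y (by simp [hy])]

lemma PR_none {X : Type u} {M : X → Module.End ℚ V} {w : List X} {x : X} (hx : x ∈ w)
    (h : M x = 0) : PR M w = 0 := by
  induction w with
  | nil => simp at hx
  | cons y w ih =>
    rcases List.mem_cons.1 hx with rfl | hx
    · rw [PR_cons, h, mul_zero]
    · rw [PR_cons, ih hx, zero_mul]

lemma PR_zip {X : Type u} (M : Lt → Module.End ℚ V) (κ : X → Option (Fin 3)) {w : List X}
    {s : List (Fin 3)} (hs : w.map κ = s.map some) (τ : X → Bool) :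
    PR (MO M (lt κ τ)) w = PR M ((w.map τ).zip s) := by
  induction w generalizing s with
  | nil => simp [PR_nil]
  | cons x w ih =>
    cases s with
    | nil => simp at hs
    | cons j s =>
      simp only [List.map_cons, List.cons.injEq] at hs
      rw [PR_cons, ih hs.2, List.map_cons, List.zip_cons_cons, PR_cons,
        MO_some (a := (τ x, j)) (by rw [lt, hs.1]; rfl)]

/-- **the relation `T3`**: the sum over the forms through a frame vanishes -/
theorem T3 {M : Lt → Module.End ℚ V} (hM : Rep M) {X : Type u} {Y : Type w}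
    (κ : X → Option (Fin 3)) (τ : Y → X → Bool) (S : Finset Y) (w : List X) (h4 : 4 ≤ w.length)
    (c : ℕ)
    (hS : ∀ l : List Bool, l.length = w.length → (S.filter fun y => w.map (τ y) = l).card = c) :
    ∑ y ∈ S, PR (MO M (lt κ (τ y))) w = 0 := by
  by_cases hn : ∃ x ∈ w, κ x = none
  · obtain ⟨x, hx, hx0⟩ := hn
    refine Finset.sum_eq_zero fun y _ => PR_none hx ?_
    exact MO_none (by rw [lt, hx0]; rfl)
  · push Not at hn
    obtain ⟨s, hs⟩ : ∃ s : List (Fin 3), w.map κ = s.map some := by
      clear hS h4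
      induction w with
      | nil => exact ⟨[], rfl⟩
      | cons x w ih =>
        obtain ⟨s, hs⟩ := ih fun y hy => hn y (by simp [hy])
        obtain ⟨j, hj⟩ := Option.ne_none_iff_exists'.1 (hn x (by simp))
        exact ⟨j :: s, by rw [List.map_cons, List.map_cons, hs, hj]⟩
    have hlen : w.length = s.length := by simpa using congrArg List.length hs
    have h1 : ∀ y ∈ S, w.map (τ y) ∈ BL s.length := fun y _ => mem_BL.2 (by simp [hlen])
    rw [← Finset.sum_fiberwise_of_maps_to h1]
    have h2 : ∀ l ∈ BL s.length, ∑ y ∈ S.filter (fun y => w.map (τ y) = l),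
        PR (MO M (lt κ (τ y))) w = (c : ℚ) • PR M (l.zip s) := by
      intro l hl
      rw [Finset.sum_congr rfl (g := fun _ => PR M (l.zip s)), Finset.sum_const,
        hS l (by rw [mem_BL.1 hl, hlen]), Nat.cast_smul_eq_nsmul]
      intro y hy
      rw [PR_zip M κ hs (τ y), (Finset.mem_filter.1 hy).2]
    rw [Finset.sum_congr rfl h2, ← Finset.smul_sum, types_zero hM (by omega), smul_zero]

/-- **the relation `T3`** with given discriminant -/
theorem T3' {M : Lt → Module.End ℚ V} (hM : Rep M) {X : Type u} {Y : Type w}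
    (κ : X → Option (Fin 3)) (τ : Y → X → Bool) (S : Finset Y) (w : List X) (h4 : 4 ≤ w.length)
    (c : ℕ) (δ : ℚ) (hδ : δ = 1 ∨ δ = -1)
    (hS : ∀ l : List Bool, l.length = w.length → (S.filter fun y => w.map (τ y) = l).card =
      if sB l = δ then c else 0) :
    ∑ y ∈ S, PR (MO M (lt κ (τ y))) w = 0 := by
  by_cases hn : ∃ x ∈ w, κ x = none
  · obtain ⟨x, hx, hx0⟩ := hn
    refine Finset.sum_eq_zero fun y _ => PR_none hx ?_
    exact MO_none (by rw [lt, hx0]; rfl)
  · push Not at hn
    obtain ⟨s, hs⟩ : ∃ s : List (Fin 3), w.map κ = s.map some := by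
      clear hS h4
      induction w with
      | nil => exact ⟨[], rfl⟩
      | cons x w ih =>
        obtain ⟨s, hs⟩ := ih fun y hy => hn y (by simp [hy])
        obtain ⟨j, hj⟩ := Option.ne_none_iff_exists'.1 (hn x (by simp))
        exact ⟨j :: s, by rw [List.map_cons, List.map_cons, hs, hj]⟩
    have hlen : w.length = s.length := by simpa using congrArg List.length hs
    have h1 : ∀ y ∈ S, w.map (τ y) ∈ BL s.length := fun y _ => mem_BL.2 (by simp [hlen])
    rw [← Finset.sum_fiberwise_of_maps_to h1]
    have h2 : ∀ l ∈ BL s.length, ∑ y ∈ S.filter (fun y => w.map (τ y) = l),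
        PR (MO M (lt κ (τ y))) w = if sB l = δ then (c : ℚ) • PR M (l.zip s) else 0 := by
      intro l hl
      have hc := hS l (by rw [mem_BL.1 hl, hlen])
      by_cases h : sB l = δ
      · rw [if_pos h] at hc ⊢
        rw [Finset.sum_congr rfl (g := fun _ => PR M (l.zip s)), Finset.sum_const, hc,
          Nat.cast_smul_eq_nsmul]
        intro y hy
        rw [PR_zip M κ hs (τ y), (Finset.mem_filter.1 hy).2]
      · rw [if_neg h] at hc ⊢
        rw [Finset.card_eq_zero.1 hc, Finset.sum_empty]
    rw [Finset.sum_congr rfl h2, ← Finset.sum_filter, ← Finset.smul_sum,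
      types_zero' hM (by omega) δ hδ, smul_zero]

end

end

end Vale.Agent.P240.R2.H584
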