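import Vale.Agent.P240.R2.H584.Sum

/-!
The relation `T3` in the hermitian case: the sum over the forms through a frame with given product of
the eigenvalues vanishes.
-/

set_option autoImplicit false
set_option linter.all false

namespace Vale.Agent.P240.R2.H584

open Vale.Agent.P240.R2.AS (SOL)
open scoped Classical

universe u v w

noncomputable section

section lists
variable {A : Type u} [Fintype A]

/-- the lists of length `n` -/
def LS (A : Type u) [Fintype A] : ℕ → Finset (List A)
  | 0 => {[]}
  | n + 1 => (Finset.univ ×ˢ LS A n).image fun p => p.1 :: p.2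

lemma mem_LS {n : ℕ} {l : List A} : l ∈ LS A n ↔ l.length = n := by
  induction n generalizing l with
  | zero => simp [LS]
  | succ n ih =>
    rw [LS, Finset.mem_image]
    constructor
    · rintro ⟨⟨a, t⟩, ht, rfl⟩
      rw [Finset.mem_product] at ht
      simp [ih.1 ht.2]
    · intro h
      cases l with
      | nil => simp at h
      | cons b l =>
        exact ⟨(b, l), Finset.mem_product.2 ⟨Finset.mem_univ _, ih.2 (by simpa using h)⟩, rfl⟩

lemma sum_LS {W : Type w} [AddCommMonoid W] (n : ℕ) (f : List A → W) :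
    ∑ l ∈ LS A (n + 1), f l = ∑ a : A, ∑ l ∈ LS A n, f (a :: l) := by
  rw [LS, Finset.sum_image, Finset.sum_product]
  rintro ⟨a, l⟩ _ ⟨b, t⟩ _ h
  simpa using h

end lists

section
variable {V : Type v} [AddCommGroup V] [Module ℚ V]

/-- the parity of an exponent -/
def par (e : ZMod 6) : Bool := decide (e.val % 2 = 1)

/-- the letter of a line with `κ² = ρˢ` and eigenvalue `ρᵉ` -/
def lte (s e : ZMod 6) : Option Lt :=
  if s - e = 0 then some (par e, 0) else if s - e = 1 then some (par e, 1) else
    if s - e = 2 then some (par e, 2) else none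

/-- the letters of the lines -/
def lu {X : Type u} (s : X → Option (ZMod 6)) (e : X → ZMod 6) (x : X) : Option Lt :=
  (s x).bind fun s => lte s (e x)

/-- the operator of an optional letter -/
def Mo (M : Lt → Module.End ℚ V) (a : Option Lt) : Module.End ℚ V := a.elim 0 M

lemma MO_eq {X : Type u} (M : Lt → Module.End ℚ V) (φ : X → Option Lt) (x : X) :
    MO M φ x = Mo M (φ x) := rfl

/-- the operator of a line, on functions on `ZMod 6` -/
def Xu (M : Lt → Module.End ℚ V) (s : ZMod 6) : Module.End ℚ (ZMod 6 → V) where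
  toFun f := fun t => ∑ e : ZMod 6, Mo M (lte s e) (f (t - e))
  map_add' f g := by
    funext t
    simp only [Pi.add_apply, map_add, Finset.sum_add_distrib]
  map_smul' c f := by
    funext t
    simp only [Pi.smul_apply, map_smul, Finset.smul_sum, RingHom.id_apply]

lemma Xu_apply (M : Lt → Module.End ℚ V) (s : ZMod 6) (f : ZMod 6 → V) (t : ZMod 6) :
    Xu M s f t = ∑ e : ZMod 6, Mo M (lte s e) (f (t - e)) := rfl

lemma par1 : ∀ s : ZMod 6, par (s - 1) = !par s := by decide

lemma par2 : ∀ s : ZMod 6, par (s - 2) = par s := by decide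

lemma par2' : ∀ s : ZMod 6, par (s + 2) = par s := by decide

lemma ne1 : ∀ s : ZMod 6, ¬ s - 1 = s := by decide

lemma ne2 : ∀ s : ZMod 6, ¬ s - 2 = s := by decide

lemma ne12 : ∀ s : ZMod 6, ¬ s - 1 = s - 2 := by decide

/-- the three terms -/
lemma Xu_three (M : Lt → Module.End ℚ V) (s : ZMod 6) (f : ZMod 6 → V) (t : ZMod 6) :
    Xu M s f t = M (par s, 0) (f (t - s)) + M (!par s, 1) (f (t - s + 1)) +
      M (par s, 2) (f (t - s + 2)) := by
  rw [Xu_apply]
  have h1 : ∀ e : ZMod 6, Mo M (lte s e) (f (t - e)) =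
      (if e = s then M (par s, 0) (f (t - s)) else 0) +
      (if e = s - 1 then M (!par s, 1) (f (t - s + 1)) else 0) +
      (if e = s - 2 then M (par s, 2) (f (t - s + 2)) else 0) := by
    intro e
    by_cases h0 : s - e = 0
    · have he : e = s := (sub_eq_zero.1 h0).symm
      rw [lte, if_pos h0, he, if_pos rfl, if_neg fun h => ne1 s h.symm,
        if_neg fun h => ne2 s h.symm, add_zero, add_zero]
      rfl
    by_cases h1 : s - e = 1
    · have he : e = s - 1 := by rw [← h1]; ring
      rw [lte, if_neg h0, if_pos h1, if_neg, if_pos he, if_neg, add_zero, zero_add]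
      · have h3 : t - s + 1 = t - e := by rw [he]; ring
        rw [h3, ← par1, ← he]; rfl
      · rw [he]; exact ne12 s
      · rw [he]; exact ne1 s
    by_cases h2 : s - e = 2
    · have he : e = s - 2 := by rw [← h2]; ring
      rw [lte, if_neg h0, if_neg h1, if_pos h2, if_neg, if_neg, if_pos he, add_zero, zero_add]
      · have h3 : t - s + 2 = t - e := by rw [he]; ring
        rw [h3, ← par2 s, ← he]; rfl
      · rw [he]; exact fun h => ne12 s h.symm
      · rw [he]; exact ne2 s
    · rw [lte, if_neg h0, if_neg h1, if_neg h2, if_neg, if_neg, if_neg]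
      · simp [Mo]
      · rintro rfl; exact h2 (by ring)
      · rintro rfl; exact h1 (by ring)
      · rintro rfl; exact h0 (by ring)
  rw [Finset.sum_congr rfl fun e _ => h1 e, Finset.sum_add_distrib, Finset.sum_add_distrib]
  simp only [Finset.sum_ite_eq', Finset.mem_univ, if_true]

/-- the symmetrized relations -/
lemma Rep.un {M : Lt → Module.End ℚ V} (h : Rep M) (p q : Bool) :
    AC (M (p, 0)) (M (q, 0)) = 0 ∧
    AC (M (p, 0)) (M (!q, 1)) + AC (M (!p, 1)) (M (q, 0)) = 0 ∧
    AC (M (p, 0)) (M (q, 2)) + AC (M (p, 2)) (M (q, 0)) + AC (M (!p, 1)) (M (!q, 1)) = 0 ∧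
    AC (M (!p, 1)) (M (q, 2)) + AC (M (p, 2)) (M (!q, 1)) = 0 ∧
    AC (M (p, 2)) (M (q, 2)) = 0 := by
  have z01t : AC (M (true, 0)) (M (false, 1)) = 0 := h.z01 true
  have z01f : AC (M (false, 0)) (M (true, 1)) = 0 := h.z01 false
  have z12t : AC (M (true, 1)) (M (false, 2)) = 0 := h.z12 true
  have z12f : AC (M (false, 1)) (M (true, 2)) = 0 := h.z12 false
  have z01t' : AC (M (false, 1)) (M (true, 0)) = 0 := by rw [AC_comm]; exact z01t
  have z01f' : AC (M (true, 1)) (M (false, 0)) = 0 := by rw [AC_comm]; exact z01f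
  have z12t' : AC (M (false, 2)) (M (true, 1)) = 0 := by rw [AC_comm]; exact z12t
  have z12f' : AC (M (true, 2)) (M (false, 1)) = 0 := by rw [AC_comm]; exact z12f
  have s01 := h.s01
  have s12 := h.s12
  have s02 := h.s02
  have z02f := h.z02 false
  have z02t := h.z02 true
  have z02f' : AC (M (false, 2)) (M (false, 0)) = 0 := by rw [AC_comm]; exact z02f
  have z02t' : AC (M (true, 2)) (M (true, 0)) = 0 := by rw [AC_comm]; exact z02t
  have sm := h.same
  have sm' : ∀ i, AC (M (true, i)) (M (false, i)) = 0 := fun i => by rw [AC_comm]; exact h.same i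
  cases p <;> cases q <;>
    simp only [Bool.not_true, Bool.not_false, h.sq, sm, sm', z01t, z01f, z12t, z12f, z01t', z01f',
      z12t', z12f', z02f, z02t, z02f', z02t', add_zero, zero_add, true_and, and_true]
  · rw [AC_comm (M (true, 1)) (M (true, 0)), AC_comm (M (false, 2)) (M (true, 0)),
      AC_comm (M (false, 2)) (M (false, 1)), add_comm (AC (M (true, 1)) (M (true, 2)))]
    exact ⟨s01, s02, s12⟩
  · rw [AC_comm (M (false, 1)) (M (false, 0)), AC_comm (M (true, 2)) (M (false, 0)),
      AC_comm (M (true, 2)) (M (true, 1)), add_comm (AC (M (true, 0)) (M (true, 1))),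
      add_comm (AC (M (true, 0)) (M (false, 2)))]
    exact ⟨s01, s02, s12⟩

lemma AC_apply (x y : Module.End ℚ V) (v : V) : x (y v) + y (x v) = AC x y v := rfl

/-- **the operators of the lines anticommute** -/
theorem Rep.xu {M : Lt → Module.End ℚ V} (h : Rep M) (s s' : ZMod 6) :
    Xu M s * Xu M s' + Xu M s' * Xu M s = 0 := by
  refine LinearMap.ext fun f => ?_
  funext t
  show Xu M s (Xu M s' f) t + Xu M s' (Xu M s f) t = 0
  simp only [Xu_three]
  set u := t - s - s' with hu
  have e1 : t - s + 1 - s' = u + 1 := by rw [hu]; ring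
  have e2 : t - s + 2 - s' = u + 2 := by rw [hu]; ring
  have e3 : t - s' - s = u := by rw [hu]; ring
  have e4 : t - s' + 1 - s = u + 1 := by rw [hu]; ring
  have e5 : t - s' + 2 - s = u + 2 := by rw [hu]; ring
  have e6 : u + 1 + 1 = u + 2 := by ring
  have e7 : u + 1 + 2 = u + 3 := by ring
  have e8 : u + 2 + 1 = u + 3 := by ring
  have e9 : u + 2 + 2 = u + 4 := by ring
  rw [e1, e2, e3, e4, e5, e6, e7, e8, e9]
  obtain ⟨a0, a1, a2, a3, a4⟩ := h.un (par s) (par s')
  generalize par s = p at *
  generalize par s' = q at *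
  have b0 := congrArg (fun x : Module.End ℚ V => x (f u)) a0
  have b1 := congrArg (fun x : Module.End ℚ V => x (f (u + 1))) a1
  have b2 := congrArg (fun x : Module.End ℚ V => x (f (u + 2))) a2
  have b3 := congrArg (fun x : Module.End ℚ V => x (f (u + 3))) a3
  have b4 := congrArg (fun x : Module.End ℚ V => x (f (u + 4))) a4
  simp only [LinearMap.add_apply, ← AC_apply, LinearMap.zero_apply] at b0 b1 b2 b3 b4
  simp only [map_add]
  have : ∀ x y : V, x = y → x - y = 0 := fun x y h => sub_eq_zero.2 h
  have h5 := congrArg₂ (· + ·) (congrArg₂ (· + ·) (congrArg₂ (· + ·) (congrArg₂ (· + ·) b0 b1) b2) b3)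
    b4
  simp only [add_zero] at h5
  rw [← h5]
  abel

/-- the shift -/
def Sh (k : ZMod 6) : Module.End ℚ (ZMod 6 → V) where
  toFun f := fun t => f (t - k)
  map_add' _ _ := rfl
  map_smul' _ _ := rfl

lemma Xu_shift (M : Lt → Module.End ℚ V) (s k : ZMod 6) (hk : par (s + k) = par s) :
    Xu M (s + k) = Sh k * Xu M s := by
  refine LinearMap.ext fun f => ?_
  funext t
  show Xu M (s + k) f t = Xu M s f (t - k)
  rw [Xu_three, Xu_three, hk]
  have e1 : t - (s + k) = t - k - s := by ring
  rw [e1]

lemma Rep.xu_sq {M : Lt → Module.End ℚ V} (h : Rep M) (s s' : ZMod 6) (hs : par s = par s') :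
    Xu M s * Xu M s' = 0 := by
  have h0 : Xu M s' * Xu M s' = 0 := by
    have h1 := h.xu s' s'
    rw [← two_smul ℚ] at h1
    exact (smul_eq_zero.1 h1).resolve_left two_ne_zero
  have h2 : Xu M s = Sh (s - s') * Xu M s' := by
    rw [← Xu_shift M s' (s - s') (by rw [add_sub_cancel]; exact hs), add_sub_cancel]
  rw [h2, mul_assoc, h0, mul_zero]

/-- **products of three operators vanish** -/
theorem Rep.xu_long {M : Lt → Module.End ℚ V} (h : Rep M) {l : List (ZMod 6)}
    (hl : 3 ≤ l.length) : PR (Xu M) l = 0 := by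
  match l, hl with
  | a :: b :: c :: l, _ =>
    rw [PR_cons, PR_cons, PR_cons, mul_assoc, mul_assoc]
    have : Xu M c * (Xu M b * Xu M a) = 0 := by
      by_cases h1 : par b = par a
      · rw [h.xu_sq b a h1, mul_zero]
      by_cases h2 : par c = par b
      · rw [← mul_assoc, h.xu_sq c b h2, zero_mul]
      · have h3 : par c = par a := by
          generalize par a = x at *
          generalize par b = y at *
          generalize par c = z at *
          cases x <;> cases y <;> cases z <;> simp_all
        have h4 := congrArg (fun x => Xu M c * x) (h.xu b a)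
        simp only [mul_add, mul_zero] at h4
        rw [← mul_assoc (Xu M c) (Xu M a), h.xu_sq c a h3, zero_mul, add_zero] at h4
        exact h4
    rw [this, mul_zero]

/-- the product of the operators of a list of lines and eigenvalues -/
lemma PR_Xu (M : Lt → Module.End ℚ V) (σ : List (ZMod 6)) : ∀ (f : ZMod 6 → V) (t : ZMod 6),
    PR (Xu M) σ f t =
      ∑ l ∈ LS (ZMod 6) σ.length, PR (fun x : ZMod 6 × ZMod 6 => Mo M (lte x.1 x.2)) (σ.zip l)
        (f (t - l.sum)) := by
  induction σ with
  | nil => intro f t; simp [LS, PR_nil]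
  | cons s σ ih =>
    intro f t
    rw [PR_cons, Module.End.mul_apply, ih, List.length_cons, sum_LS, Finset.sum_comm]
    refine Finset.sum_congr rfl fun l _ => ?_
    rw [Xu_apply, map_sum]
    refine Finset.sum_congr rfl fun e _ => ?_
    rw [List.zip_cons_cons, PR_cons, Module.End.mul_apply, List.sum_cons]
    congr 3
    ring

lemma PR_zip' {X : Type u} (M : Lt → Module.End ℚ V) (s : X → Option (ZMod 6)) {w : List X}
    {σ : List (ZMod 6)} (hs : w.map s = σ.map some) (e : X → ZMod 6) :
    PR (MO M (lu s e)) w =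
      PR (fun x : ZMod 6 × ZMod 6 => Mo M (lte x.1 x.2)) (σ.zip (w.map e)) := by
  induction w generalizing σ with
  | nil =>
    have : σ = [] := by
      cases σ with
      | nil => rfl
      | cons a s => simp at hs
    subst this
    simp [PR_nil]
  | cons x w ih =>
    cases σ with
    | nil => simp at hs
    | cons j σ =>
      simp only [List.map_cons, List.cons.injEq] at hs
      rw [PR_cons, ih hs.2, List.map_cons, List.zip_cons_cons, PR_cons]
      congr 1
      rw [MO_eq, lu, hs.1]
      rfl

/-- **the relation `T3`, hermitian case** -/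
theorem T3u {M : Lt → Module.End ℚ V} (hM : Rep M) {X : Type u} {Y : Type w}
    (s : X → Option (ZMod 6)) (e : Y → X → ZMod 6) (S : Finset Y) (w : List X)
    (h3 : 3 ≤ w.length) (c : ZMod 6 → ℕ)
    (hS : ∀ l : List (ZMod 6), l.length = w.length →
      (S.filter fun y => w.map (e y) = l).card = c l.sum) :
    ∑ y ∈ S, PR (MO M (lu s (e y))) w = 0 := by
  by_cases hn : ∃ x ∈ w, s x = none
  · obtain ⟨x, hx, hx0⟩ := hn
    refine Finset.sum_eq_zero fun y _ => PR_none hx ?_
    exact MO_none (by rw [lu, hx0]; rfl)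
  · push Not at hn
    obtain ⟨σ, hσ⟩ : ∃ σ : List (ZMod 6), w.map s = σ.map some := by
      clear hS h3
      induction w with
      | nil => exact ⟨[], rfl⟩
      | cons x w ih =>
        obtain ⟨σ, hσ⟩ := ih fun y hy => hn y (by simp [hy])
        obtain ⟨j, hj⟩ := Option.ne_none_iff_exists'.1 (hn x (by simp))
        exact ⟨j :: σ, by rw [List.map_cons, List.map_cons, hσ, hj]⟩
    have hlen : w.length = σ.length := by simpa using congrArg List.length hσ
    have h1 : ∀ y ∈ S, w.map (e y) ∈ LS (ZMod 6) σ.length := fun y _ => mem_LS.2 (by simp [hlen])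
    rw [← Finset.sum_fiberwise_of_maps_to h1]
    have h2 : ∀ l ∈ LS (ZMod 6) σ.length, ∑ y ∈ S.filter (fun y => w.map (e y) = l),
        PR (MO M (lu s (e y))) w = (c l.sum : ℚ) •
          PR (fun x : ZMod 6 × ZMod 6 => Mo M (lte x.1 x.2)) (σ.zip l) := by
      intro l hl
      rw [Finset.sum_congr rfl (g := fun _ =>
          PR (fun x : ZMod 6 × ZMod 6 => Mo M (lte x.1 x.2)) (σ.zip l)), Finset.sum_const,
        hS l (by rw [mem_LS.1 hl, hlen]), Nat.cast_smul_eq_nsmul]
      intro y hy
      rw [PR_zip' M s hσ (e y), (Finset.mem_filter.1 hy).2]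
    rw [Finset.sum_congr rfl h2]
    refine LinearMap.ext fun a => ?_
    have h4 := PR_Xu M σ (fun u => (c (-u) : ℚ) • a) 0
    rw [hM.xu_long (by omega)] at h4
    rw [LinearMap.sum_apply, LinearMap.zero_apply]
    refine Eq.trans (Finset.sum_congr rfl fun l _ => ?_) h4.symm
    rw [LinearMap.smul_apply, map_smul, zero_sub, neg_neg]

/-- **`T3` for the functions on words**, hermitian case -/
theorem T3u_zf {M : Lt → Module.End ℚ V} (hM : Rep M)
    (ℓ : V →ₗ[ℚ] ℚ) (a : V) {X : Type w} [Fintype X] {Y : Type u} (s : X → Option (ZMod 6))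
    (e : Y → X → ZMod 6)
    (S : Finset Y) (Fy : Y → Finset (List X)) (h3 : ∀ y, ∀ w ∈ Fy y, 3 ≤ w.length)
    (hS : ∀ w : List X, ∃ c : ZMod 6 → ℕ, ∀ l : List (ZMod 6), l.length = w.length →
      (S.filter fun y => w ∈ Fy y ∧ w.map (e y) = l).card = c l.sum) :
    ∑ y ∈ S, zf M ℓ a (lu s (e y)) (Fy y) = 0 := by
  funext w
  rw [Finset.sum_apply]
  show ∑ y ∈ S, (if w ∈ Fy y then ℓ (PR (MO M (lu s (e y))) w a) else 0) = 0
  rw [← Finset.sum_filter]
  by_cases hw : ∃ y ∈ S, w ∈ Fy y
  · obtain ⟨y0, -, hy0⟩ := hw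
    obtain ⟨c, hc⟩ := hS w
    have h1 := T3u hM s e (S.filter fun y => w ∈ Fy y) w (h3 y0 w hy0) c (by
      intro l hl
      rw [Finset.filter_filter]
      exact hc l hl)
    rw [← map_sum, ← LinearMap.sum_apply, h1, LinearMap.zero_apply, map_zero]
  · push Not at hw
    rw [Finset.filter_eq_empty_iff.2 fun y hy => hw y hy, Finset.sum_empty]

end

end

end Vale.Agent.P240.R2.H584
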